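import Vale.Agent.P221.H924.Gr

/-!
# P221 (helper924): `MU` with all its structure; forms

* `exists_mu` : `D : MUData` with `MUUniv`, `MUAll`, `MUFam`;
* `exists_form'` : forms of the statement layer are `p`-complete, connective, with the homotopy of
  `B ⊗ S/p` given by a `Form`;
* `odd_M`, `cB_apply` : fields of `FIHyp`.
-/

open CategoryTheory MonoidalCategory MonObj Limits Pretriangulated

set_option linter.unusedSectionVars false

noncomputable section

namespace Vale.Agent.P221.H924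

open Vale.Agent.P251 Vale.Agent.P251.S Vale.Agent.P251.T Vale.Agent.P251.M Vale.Agent.P251.F
  Vale.Agent.P251.I EvenSpheres Vale.Agent.P257.H80 Vale.Agent.P251.Q Vale.Agent.P251.G
  Vale.Agent.P251.G.LC Vale.Agent.P257.H702
  Vale.Agent.P221.H746 Vale.Agent.P093.N0 Vale.Agent.P221.H174 Vale.Agent.P221.H509

universe v u

/-- **`MU`**, with all its structure, at all primes. -/
theorem exists_mu {T : Type u} [Category.{v} T] [Preadditive T] [HasZeroObject T]
    [HasShift T ℤ] [∀ n : ℤ, (shiftFunctor T n).Additive] [Pretriangulated T] [IsTriangulated T]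
    [MonoidalCategory T] [SymmetricCategory T] [TensorTriangulated T] [MonoidalClosed T]
    [HasCoproducts.{0} T] [HasProducts.{0} T] [StableCat T] (F : SpaceFunctor T)
    (e : F.S.obj CCF ≅ (stdEven T).L) :
    ∃ D : MUData T, MUUniv e D ∧ MUAll D ∧ Nonempty (MUFam e D) := by
  obtain ⟨M⟩ := nonempty_MUMon F (stdEven T) e
  obtain ⟨b⟩ := M.nonempty_muBasis
  refine ⟨M.data b, M.muUniv b, MUMon.muAll M b, ⟨⟨M.fam, ?_, ?_, ?_⟩⟩⟩
  · rw [M.data_law b, M.ori_eq, M.orient_eq]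
    rfl
  · intro K _ _ W'
    obtain ⟨u, hu, _, h⟩ := M.exists_univ_of_cls W' (clsOfFam e W') (fun _ _ => rfl)
    exact ⟨u, hu, h⟩
  · intro K _ _ u u' hu hu' h
    exact @univ_unique T _ _ _ _ _ _ _ _ _ _ _ _ _ _ F (stdEven T) e M K _ _ u u' hu hu' h

section st

open Vale.Agent.P251.St

variable {T : SHCat} {S : Susp T} {p : ℕ} [hp : Fact p.Prime] {n : ℕ}
  {D : MUData T.C} {M : T.C} {i : 𝟙_ T.C ⟶ M} {δ : M ⟶ (𝟙_ T.C)⟦(1 : ℤ)⟧}

theorem pComplete_iff {B : T.C} : P221.St.PComplete p B ↔ H395.PComplete p B := Iff.rfl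

/-- **(E2)** with all the facts about `B` -/
theorem exists_form' (hD : MUUniv (P251.M.lineIso S.toSpaceFunctor) D) (hA : MUAll D)
    (U : MUFam (P251.M.lineIso S.toSpaceFunctor) D)
    (hM : Triangle.mk ((p : ℤ) • 𝟙 (𝟙_ T.C)) i δ ∈ distTriang T.C) {B : T.C}
    (hB : P221.St.IsForm S p n B) :
    H395.PComplete p B ∧ Conn 0 B ∧
    ∃ (L : ModStr D.R B) (Q : Form p n), Nonempty (FormOut D (L.tensorRight M) Q) := by
  obtain ⟨L, Q, ⟨Φ⟩⟩ := exists_form hD hA U hM hB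
  have hc : H395.PComplete p B := by
    obtain ⟨_, _, _, _, _, _, _, _, h, _⟩ := hB
    exact h
  exact ⟨hc, conn_of_form Φ hc hM, L, Q, ⟨Φ⟩⟩

variable {B : T.C} {L : ModStr D.R B} {Q : Form p n}

/-- `M(B⟦1⟧) = 0` -/
theorem odd_M (hA : MUAll D) (hM : Triangle.mk ((p : ℤ) • 𝟙 (𝟙_ T.C)) i δ ∈ distTriang T.C)
    (Φ : FormOut D (L.tensorRight M) Q) (j : ℤ)
    (x : ((Ctx.ofMU D hA hM).M (B⟦(1 : ℤ)⟧)).A j) : x = 0 :=
  even_shift D Φ.odd j x

/-- the functional `cB` of `FData` is the action -/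
theorem cB_apply (hA : MUAll D) (hM : Triangle.mk ((p : ℤ) • 𝟙 (𝟙_ T.C)) i δ ∈ distTriang T.C)
    (Φ : FormOut D (L.tensorRight M) Q) (hB : H395.PComplete p B) (j : ℤ)
    (x : (stdEven T.C).S j ⟶ D.R ⊗ (B ⊗ M)) :
    ((fdata hA hM L).cB.f j x : (stdEven T.C).S j ⟶ B ⊗ M) = x ≫ (L.tensorRight M).act :=
  kfun_eq_act D hM hB Φ.odd (L.tensorRight M) (fdata hA hM L).hr j x

end st

end Vale.Agent.P221.H924
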