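import Vale.Agent.P221.H924.BP

/-!
# P221 (helper924): standard forms are forms

`isForm_of_isStandardForm`
-/

open CategoryTheory MonoidalCategory MonObj Limits Pretriangulated

set_option linter.unusedSectionVars false

noncomputable section

namespace Vale.Agent.P221.H924

open Vale.Agent.P251 Vale.Agent.P251.S Vale.Agent.P251.T Vale.Agent.P251.M Vale.Agent.P251.F
  Vale.Agent.P251.I EvenSpheres Vale.Agent.P257.H702 Vale.Agent.P257.H80 Vale.Agent.P251.Q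
  Vale.Agent.P251.St Vale.Agent.P257.St Vale.Agent.P221.H746 Vale.Agent.P093.N0

variable {T : SHCat} {S : Susp T} {p : ℕ} [hp : Fact p.Prime] {n : ℕ} {P : RingSp T}
  {φ : P257.St.GHom S p P} {D : MUData T.C} {b : D.R ⟶ P.obj} [IsMonHom b]
  {κ : HRing (stdEven T.C) P.obj →+* MvPolynomial ℕ (ZMod p)}
  {x : ∀ j : ℕ, SHCat.Hom (S.obj (Cn (p ^ j - 1))) P.obj}
  {M : T.C} {i : 𝟙_ T.C ⟶ M} {δ : M ⟶ (𝟙_ T.C)⟦(1 : ℤ)⟧}

/-- the `x j` die in the quotient -/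
theorem x_comp_q {C : T.C} {q : P.obj ⟶ C} (h : ∀ j, n ≤ j → xE x j ≫ q = 0) {j : ℕ} (hj : n < j) :
    x j ≫ q = 0 := by
  obtain ⟨j, rfl⟩ : ∃ i, j = i + 1 := ⟨j - 1, by omega⟩
  have h1 := h j (Nat.lt_succ_iff.1 hj)
  rw [xE, Category.assoc] at h1
  rw [← cancel_epi (isoE S (p ^ (j + 1) - 1)).inv, h1, comp_zero]

/-- the homotopy of `C ⊗ M` for a quotient `C` of `BP` -/
theorem mod_of_isQuotient (hκ : BPOut D φ b κ) (hx : ∀ j, n < j → P221.St.IsPolyGen φ j (x j))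
    {C : T.C} {a : SHCat.Hom (SHCat.ten P.obj C) C} {q : P.obj ⟶ C}
    (h : P221.St.IsQuotient n x a q)
    (hM : Triangle.mk ((p : ℤ) • 𝟙 (𝟙_ T.C)) i δ ∈ distTriang T.C) :
    (∀ (k : ℤ) (y : (𝟙_ T.C)⟦k⟧ ⟶ C ⊗ M), ∃ u : (𝟙_ T.C)⟦k⟧ ⟶ P.obj ⊗ M, u ≫ (q ▷ M) = y) ∧
      ∀ (k : ℤ) (u : (𝟙_ T.C)⟦k⟧ ⟶ P.obj ⊗ M),
        u ≫ (q ▷ M) = 0 ↔ P221.St.InGen n x M u := by
  have hx1 : ∀ j, n ≤ j → (κ (xc (xE x) j)).IsWeightedHomogeneous (wN p) (wN p j) := fun j hj =>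
    (hκ.gen x j (hx _ (Nat.lt_succ_iff.2 hj))).1
  have hx2 : ∀ j, n ≤ j → MvPolynomial.coeff (Finsupp.single j 1) (κ (xc (xE x) j)) ≠ 0 :=
    fun j hj => (hκ.gen x j (hx _ (Nat.lt_succ_iff.2 hj))).2
  have htf : ∀ y : HRing (stdEven T.C) P.obj, (p : HRing (stdEven T.C) P.obj) * y = 0 → y = 0 := by
    intro y hy
    have h5 : (p : HRing (stdEven T.C) P.obj) * y = (p : ℤ) • y := by
      rw [zsmul_eq_mul, Int.cast_natCast]
    rw [h5] at hy
    refine DFinsupp.ext fun w => hκ.good.tfE w (y w) ?_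
    have h6 : ((p : ℤ) • y : HRing (stdEven T.C) P.obj) w =
        (p : ℤ) • (y w : (stdEven T.C).S w ⟶ P.obj) := DFinsupp.zsmul_apply _ _ _
    rw [← h6, hy]
    rfl
  have hQ := isQ_of_isQuotient hκ.good.oddDiv hκ.good.oddTf h
  constructor
  · intro k y
    rcases Int.even_or_odd' k with ⟨w, rfl | rfl⟩
    · obtain ⟨u, hu⟩ := hQ.surj hM w ((stdSph w).hom ≫ y)
      refine ⟨(stdSph w).inv ≫ u ≫ rdM i P.obj, ?_⟩
      rw [Category.assoc, Category.assoc, ← rdM_nat, rdM, ← hu, Iso.inv_hom_id_assoc]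
    · refine ⟨0, ?_⟩
      rw [zero_comp, hQ.odd hκ.surj hκ.ker htf hx1 hx2 hM w y]
  · intro k u
    constructor
    · intro hu
      rcases Int.even_or_odd' k with ⟨w, rfl | rfl⟩
      · obtain ⟨a', rfl⟩ := lift_even hκ.good.oddTf hM w u
        have h1 : ((stdSph w).hom ≫ a') ≫ q ≫ (ρ_ C).inv ≫ (C ◁ i) = 0 := by
          have h2 : q ≫ (ρ_ C).inv ≫ (C ◁ i) = rdM i P.obj ≫ (q ▷ M) := rdM_nat q
          rw [h2, Category.assoc, ← Category.assoc a', hu, comp_zero]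
        obtain ⟨v, hv, c, hc⟩ := exists_mem_add hκ.ker hκ.surj
          ((hQ.ker hκ.surj hκ.ker hM w _).1 h1)
        have h3 : a' ≫ rdM i P.obj = (stdSph w).inv ≫
            (v w : (stdEven T.C).S w ⟶ P.obj) ≫ rdM i P.obj := by
          have h4 : a' = (stdSph w).inv ≫ ((v w : (stdEven T.C).S w ⟶ P.obj) + (p : ℤ) • c) := by
            rw [← hc, Iso.inv_hom_id_assoc]
          have h5 : ((p : ℤ) • c) ≫ rdM i P.obj = 0 := ModP.zsmul_comp_eq_zero hM c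
          rw [h4, Category.assoc, Preadditive.add_comp, h5, add_zero]
        rw [h3]
        exact inGen_red hv w
      · rw [good_odd hκ.good hM w u]
        exact inGen_zero _ _
    · intro hu
      exact comp_eq_zero_of_inGen (modOf h.act) h.map (fun j hj => x_comp_q hQ.zero hj) hu

theorem isAct_of_modStr {B : T.C} (N : ModStr P.obj B) : P221.St.IsAct (R := P) N.act := by
  constructor
  · change (λ_ B).inv ≫ (η[P.obj] ▷ B) ≫ N.act = 𝟙 B
    rw [N.one_act, Iso.inv_hom_id]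
  · exact N.mul_act

/-- **(E2')** standard forms of `BP⟨n⟩_p` are forms -/
theorem isForm_of_isStandardForm (hD : MUUniv (P251.M.lineIso S.toSpaceFunctor) D) (hA : MUAll D)
    (U : MUFam (P251.M.lineIso S.toSpaceFunctor) D) {B : T.C}
    (hB : P221.St.IsStandardForm S p n B) : P221.St.IsForm S p n B := by
  obtain ⟨P, o, φ, x, C, a, q, c, hP, hx, hq, hc⟩ := hB
  obtain ⟨b, _, κ, hκ⟩ := exists_bpOut hD hA U hP
  have hiso : ∀ (M : T.C) (i : 𝟙_ T.C ⟶ M) (δ : M ⟶ (𝟙_ T.C)⟦(1 : ℤ)⟧),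
      Triangle.mk ((p : ℤ) • 𝟙 (𝟙_ T.C)) i δ ∈ distTriang T.C → IsIso (c ▷ M) :=
    fun M i δ hM => H395.isIso_mod_of_univ hM c hc.1 hc.2
  obtain ⟨M₀, i₀, δ₀, hM₀⟩ := exists_moore (𝒯 := T.C) (p : ℤ)
  obtain ⟨N, hN⟩ := H395.exists_modStr hM₀ (modOf hq.act) c (hiso _ _ _ hM₀) hc.1
  refine ⟨P, o, φ, x, N.act, q ≫ c, hP, hx, hc.1, isAct_of_modStr N, ?_, ?_⟩
  · change μ[P.obj] ≫ q ≫ c = (P.obj ◁ (q ≫ c)) ≫ N.act
    have h1 : μ[P.obj] ≫ q = (P.obj ◁ q) ≫ a := hq.map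
    have h2 : a ≫ c = (P.obj ◁ c) ≫ N.act := hN
    rw [← Category.assoc, h1, Category.assoc, h2, MonoidalCategory.whiskerLeft_comp,
      Category.assoc]
  · rintro M ⟨i, δ, hM⟩
    have := hiso M i δ hM
    obtain ⟨h1, h2⟩ := mod_of_isQuotient hκ hx hq hM
    constructor
    · intro k y
      obtain ⟨u, hu⟩ := h1 k (y ≫ inv (c ▷ M))
      refine ⟨u, ?_⟩
      change u ≫ ((q ≫ c) ▷ M) = y
      rw [comp_whiskerRight, ← Category.assoc]
      have hu' : u ≫ (q ▷ M) = y ≫ inv (c ▷ M) := hu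
      rw [hu', Category.assoc, IsIso.inv_hom_id, Category.comp_id]
    · intro k u
      refine Iff.trans ?_ (h2 k u)
      change u ≫ ((q ≫ c) ▷ M) = 0 ↔ u ≫ (q ▷ M) = 0
      rw [comp_whiskerRight, ← Category.assoc]
      constructor
      · intro h
        rw [← cancel_mono (c ▷ M), h, zero_comp]
      · intro h
        rw [h, zero_comp]

end Vale.Agent.P221.H924
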