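import Vale.Agent.P221.H924.Std
import Vale.Agent.P221.H174.Unit
import Vale.Agent.P221.H509.FI
import Vale.Agent.P221.H521.MC

/-!
# P221 (helper924): forms as input of the final induction

* `odd_RY` : `π_odd (MU ⊗ Y) = 0` if `π_odd Y = 0`;
* `fdata` : a homotopy `MU`-module `B` as `FData`;
* `conn_of_form`, `odd_of_form`, `kfun_eq_act` (K6), `exists_gmIso`.
-/

open CategoryTheory MonoidalCategory MonObj Limits Pretriangulated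

set_option linter.unusedSectionVars false

noncomputable section

namespace Vale.Agent.P221.H924

open Vale.Agent.P251 Vale.Agent.P251.S Vale.Agent.P251.T Vale.Agent.P251.M Vale.Agent.P251.F
  Vale.Agent.P251.I EvenSpheres Vale.Agent.P257.H80 Vale.Agent.P251.Q
  Vale.Agent.P221.H746 Vale.Agent.P093.N0 Vale.Agent.P221.H174 Vale.Agent.P221.H509

universe u

variable {𝒯 : Type u} [Category.{0} 𝒯] [Preadditive 𝒯] [HasZeroObject 𝒯]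
    [HasShift 𝒯 ℤ] [∀ n : ℤ, (shiftFunctor 𝒯 n).Additive] [Pretriangulated 𝒯] [IsTriangulated 𝒯]
    [MonoidalCategory 𝒯] [SymmetricCategory 𝒯] [TensorTriangulated 𝒯] [MonoidalClosed 𝒯]
    [HasCoproducts.{0} 𝒯] [HasProducts.{0} 𝒯] [StableCat 𝒯]

section odd

variable (D : MUData 𝒯)

/-- the odd homotopy of `MU ⊗ Y` -/
theorem odd_RY {Y : 𝒯} (hY : ∀ (k : ℤ) (f : (𝟙_ 𝒯)⟦2 * k + 1⟧ ⟶ Y), f = 0) (k : ℤ)
    (f : (𝟙_ 𝒯)⟦2 * k + 1⟧ ⟶ D.R ⊗ Y) : f = 0 := by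
  obtain ⟨F, j, hT, hF⟩ := D.cells 1
  obtain ⟨n, w, hw⟩ := hT.whiskerLeft_factor Y (isCpt_sph (2 * k + 1))
    (f ≫ (β_ D.R Y).hom ≫ (Y ◁ Am.v D.R (0 : Fin 1)))
  have h1 : w = 0 := (hF n).odd_zero hY k w
  rw [h1, zero_comp] at hw
  have h2 : f ≫ (β_ D.R Y).hom ≫ (Y ◁ Am.v D.R (0 : Fin 1)) ≫ (Y ◁ amOne D.R) = f ≫ (β_ D.R Y).hom := by
    rw [← MonoidalCategory.whiskerLeft_comp, v_amOne, MonoidalCategory.whiskerLeft_id,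
      Category.comp_id]
  rw [← cancel_mono (β_ D.R Y).hom, ← h2, zero_comp]
  have h3 : f ≫ (β_ D.R Y).hom ≫ (Y ◁ Am.v D.R (0 : Fin 1)) ≫ (Y ◁ amOne D.R) =
      (f ≫ (β_ D.R Y).hom ≫ (Y ◁ Am.v D.R (0 : Fin 1))) ≫ (Y ◁ amOne D.R) := by
    simp only [Category.assoc]
  rw [h3, ← hw, zero_comp]

/-- `X⟦m⟧ ⊗ Y ≅ (X ⊗ Y)⟦m⟧` -/
def shL (X Y : 𝒯) (m : ℤ) : X⟦m⟧ ⊗ Y ≅ (X ⊗ Y)⟦m⟧ :=
  whiskerRightIso (tensorUnitShiftIso X m).symm Y ≪≫ α_ X ((𝟙_ 𝒯)⟦m⟧) Y ≪≫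
    whiskerLeftIso X (β_ ((𝟙_ 𝒯)⟦m⟧) Y) ≪≫ (α_ X Y ((𝟙_ 𝒯)⟦m⟧)).symm ≪≫
      tensorUnitShiftIso (X ⊗ Y) m

/-- `X ⊗ Y⟦m⟧ ≅ (X ⊗ Y)⟦m⟧` -/
def shR (X Y : 𝒯) (m : ℤ) : X ⊗ Y⟦m⟧ ≅ (X ⊗ Y)⟦m⟧ :=
  whiskerLeftIso X (tensorUnitShiftIso Y m).symm ≪≫ (α_ X Y ((𝟙_ 𝒯)⟦m⟧)).symm ≪≫
      tensorUnitShiftIso (X ⊗ Y) m

/-- even homotopy of `MU ⊗ (B⟦1⟧ ⊗ C)` -/
theorem even_shift {B C : 𝒯} (hY : ∀ (k : ℤ) (f : (𝟙_ 𝒯)⟦2 * k + 1⟧ ⟶ B ⊗ C), f = 0) (w : ℤ)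
    (f : (stdEven 𝒯).S w ⟶ D.R ⊗ (B⟦(1 : ℤ)⟧ ⊗ C)) : f = 0 := by
  let e : D.R ⊗ (B⟦(1 : ℤ)⟧ ⊗ C) ≅ (D.R ⊗ (B ⊗ C))⟦(1 : ℤ)⟧ :=
    whiskerLeftIso D.R (shL B C 1) ≪≫ shR D.R (B ⊗ C) 1
  have h1 := eq_zero_of_shift (2 * (w - 1) + 1) 1 (2 * w) (by ring)
    (odd_RY D hY (w - 1)) ((stdSph w).inv ≫ f ≫ e.hom)
  rw [← cancel_epi (stdSph w).inv, ← cancel_mono e.hom, Category.assoc, h1, comp_zero, zero_comp]

end odd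

section pc

variable {p : ℕ} {M : 𝒯} {i : 𝟙_ 𝒯 ⟶ M} {δ : M ⟶ (𝟙_ 𝒯)⟦(1 : ℤ)⟧} {B : 𝒯}

theorem odd_of_complete (hM : Triangle.mk ((p : ℤ) • 𝟙 (𝟙_ 𝒯)) i δ ∈ distTriang 𝒯)
    (hB : H395.PComplete p B)
    (hodd : ∀ (k : ℤ) (f : (𝟙_ 𝒯)⟦2 * k + 1⟧ ⟶ B ⊗ M), f = 0) (k : ℤ)
    (f : (𝟙_ 𝒯)⟦2 * k + 1⟧ ⟶ B) : f = 0 :=
  hB.hom_eq_zero_of_mod hM (fun g => hodd k g) f

/-- **(K6)** the homotopy of `MU ⊗ (B ⊗ S/p)` comes from `MU ⊗ B` -/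
theorem exists_lift_RB (D : MUData 𝒯) (hM : Triangle.mk ((p : ℤ) • 𝟙 (𝟙_ 𝒯)) i δ ∈ distTriang 𝒯)
    (hB : H395.PComplete p B) (hodd : ∀ (k : ℤ) (f : (𝟙_ 𝒯)⟦2 * k + 1⟧ ⟶ B ⊗ M), f = 0) (w : ℤ)
    (f : (stdEven 𝒯).S w ⟶ D.R ⊗ (B ⊗ M)) :
    ∃ g : (stdEven 𝒯).S w ⟶ D.R ⊗ B, f = g ≫ (D.R ◁ rd i B) := by
  have h0 : ∀ g : (stdEven 𝒯).S w ⟶ (D.R ⊗ B)⟦(1 : ℤ)⟧, g = 0 := by
    intro g
    have h1 := eq_zero_of_shift (2 * (w - 1) + 1) 1 (2 * w) (by ring)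
      (odd_RY D (odd_of_complete hM hB hodd) (w - 1)) ((stdSph w).inv ≫ g)
    rw [← cancel_epi (stdSph w).inv, h1, comp_zero]
  obtain ⟨g, hg⟩ := ModP.exists_lift hM (X := D.R ⊗ B) (fun g _ => h0 g)
    (f ≫ (α_ D.R B M).inv)
  refine ⟨g, ?_⟩
  rw [← cancel_mono (α_ D.R B M).inv, hg, Category.assoc]
  congr 1
  unfold rd
  rw [MonoidalCategory.whiskerLeft_comp, Category.assoc, associator_inv_naturality_right]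
  simp

/-- **(K6)** the functional of the reduction is the action -/
theorem kfun_eq_act (D : MUData 𝒯) (hM : Triangle.mk ((p : ℤ) • 𝟙 (𝟙_ 𝒯)) i δ ∈ distTriang 𝒯)
    (hB : H395.PComplete p B) (hodd : ∀ (k : ℤ) (f : (𝟙_ 𝒯)⟦2 * k + 1⟧ ⟶ B ⊗ M), f = 0)
    (L : ModStr D.R (B ⊗ M)) {r : (B ⊗ M) ⊗ M ⟶ B ⊗ M} (hr : rd i (B ⊗ M) ≫ r = 𝟙 (B ⊗ M))
    (w : ℤ) (f : (stdEven 𝒯).S w ⟶ D.R ⊗ (B ⊗ M)) :
    f ≫ kfun L r (rd i B) = f ≫ L.act := by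
  obtain ⟨g, rfl⟩ := exists_lift_RB D hM hB hodd w f
  have h1 : rd i B ≫ (rd i B ▷ M) ≫ r = rd i B := by
    rw [← Category.assoc, ← rd_naturality, Category.assoc, hr, Category.comp_id]
  unfold kfun ModStr.ext
  rw [Category.assoc, ← MonoidalCategory.whiskerLeft_comp_assoc, h1, Category.assoc]

end pc

section fd

open Vale.Agent.P251.St

variable {T : SHCat} {S : Susp T} {p : ℕ} [hp : Fact p.Prime] {n : ℕ}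
  {D : MUData T.C} (hA : MUAll D) {M : T.C} {i : 𝟙_ T.C ⟶ M} {δ : M ⟶ (𝟙_ T.C)⟦(1 : ℤ)⟧}
  (hM : Triangle.mk ((p : ℤ) • 𝟙 (𝟙_ T.C)) i δ ∈ distTriang T.C) {B N : T.C}

/-- a homotopy `MU`-module as input of the final induction -/
def fdata (L : ModStr D.R B) : FData (Ctx.ofMU D hA hM) where
  B := B
  L := L.tensorRight M
  pN := p_zero_tens (Ctx.ofMU D hA hM).pK L
  r := (exists_c hM (p_zero_tens (Ctx.ofMU D hA hM).pK L)).choose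
  hr := (exists_c hM (p_zero_tens (Ctx.ofMU D hA hM).pK L)).choose_spec

variable {L : ModStr D.R N} {Q : Form p n} (Φ : FormOut D L Q)

/-- `Y_m` acts by `Q.pol m` -/
theorem chi_yMU (m : ℕ) :
    Φ.χ (HRing.of (stdEven T.C) D.R ((m : ℤ) + 1) (yMU D p m)) = Q.pol m := by
  have h1 : HRing.of (stdEven T.C) D.R ((m : ℤ) + 1) (yMU D p m) =
      Laz.lift D.law (zeta p m) := (L0_zeta D m).symm
  rw [h1, Laz.map_lift, Φ.law, zeta, map_yF, Laz.univ_map_lift, Form.yF_law]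

include Φ in
/-- **the homotopy of `B ⊗ S/p`** as a module over `k[Y_0, Y_1, …]` -/
theorem exists_gmIso (hp0 : (p : ℤ) • 𝟙 N = 0) :
    ∃ (F : GM.Lin Set.univ ((Ctx.ofMU D hA hM).LG L hp0) Q.RG)
      (G : GM.Lin Set.univ Q.RG ((Ctx.ofMU D hA hM).LG L hp0)),
      (∀ i x, G.f i (F.f i x) = x) ∧ ∀ i y, F.f i (G.f i y) = y := by
  let F₀ : ∀ i : ℤ, ((Ctx.ofMU D hA hM).LG L hp0).A i →+ (Q.RG).A i := fun i =>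
    (Φ.Θ i).toAddMonoidHom
  let G₀ : ∀ i : ℤ, (Q.RG).A i →+ ((Ctx.ofMU D hA hM).LG L hp0).A i := fun i =>
    (Φ.Θ i).symm.toAddMonoidHom
  have hF : ∀ (m : ℕ) {i j : ℤ} (h : i + ((m : ℤ) + 1) = j)
      (x : ((Ctx.ofMU D hA hM).LG L hp0).A i),
      F₀ j (((Ctx.ofMU D hA hM).LG L hp0).act m h x) = Q.RG.act m h (F₀ i x) := by
    intro m i j h x
    apply Subtype.ext
    have h1 := Φ.smul (w := (m : ℤ) + 1) (i := i) (j := j) (by omega) (yMU D p m) x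
    rw [chi_yMU Φ] at h1
    exact h1
  refine ⟨⟨fun i => (F₀ i).toZModLinearMap p, fun m _ {i j} h x => hF m h x⟩,
    ⟨fun i => (G₀ i).toZModLinearMap p, fun m _ {i j} h y => ?_⟩, fun i x => ?_, fun i y => ?_⟩
  · change G₀ j (Q.RG.act m h y) = ((Ctx.ofMU D hA hM).LG L hp0).act m h (G₀ i y)
    have h2 : y = F₀ i (G₀ i y) := ((Φ.Θ i).apply_symm_apply y).symm
    conv_lhs => rw [h2, ← hF m h]
    exact (Φ.Θ j).symm_apply_apply _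
  · exact (Φ.Θ i).symm_apply_apply x
  · exact (Φ.Θ i).apply_symm_apply y

/-- forms are connective -/
theorem conn_of_form {LB : ModStr D.R B} {Q : Form p n} (Φ : FormOut D (LB.tensorRight M) Q)
    (hB : H395.PComplete p B)
    (hM : Triangle.mk ((p : ℤ) • 𝟙 (𝟙_ T.C)) i δ ∈ distTriang T.C) : Conn 0 B := by
  intro k hk f
  refine hB.hom_eq_zero_of_mod hM (fun g => ?_) f
  rcases Int.even_or_odd' k with ⟨w, rfl | rfl⟩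
  · have h1 : Φ.Θ w ((stdSph w).hom ≫ g) = 0 :=
      Subtype.ext (isWH_neg p (by omega) (Φ.Θ w ((stdSph w).hom ≫ g)).2)
    have h2 : (stdSph w).hom ≫ g = 0 := (Φ.Θ w).injective (h1.trans (map_zero _).symm)
    rw [← cancel_epi (stdSph w).hom, h2, comp_zero]
  · exact Φ.odd w g

end fd

end Vale.Agent.P221.H924
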