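import Vale.Agent.P221.H924.Scale
import Mathlib.RingTheory.MvPolynomial.Ideal

/-!
# P221 (helper924): the coefficients of a form of `BP⟨n⟩` modulo `p`

`k = ZMod p`, `VR p = k[v_1, v_2, …]` (`v_{i+1} = X i`), `x j` (`j ≥ n`) homogeneous of weight
`p ^ (j + 1) - 1` with non-zero coefficient at `v_{j+1}`. Then there is a homogeneous surjection
`π : k[v_1, v_2, …] → k[X_0, …, X_{n-1}]` with kernel generated by the `x j`, which maps the
elements `v_{a+1}` of Hazewinkel's law to `X a`.
-/

namespace Vale.Agent.P221.H924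

open Vale.Agent.P251.F Vale.Agent.P257.H80 MvPolynomial

set_option linter.unusedSectionVars false

section tri

variable (p : ℕ) [hp : Fact p.Prime]

/-- the weights of `v_1, v_2, …` -/
def wN (i : ℕ) : ℕ := p ^ (i + 1) - 1

theorem wN_mono {i j : ℕ} (h : i ≤ j) : wN p i ≤ wN p j := by
  unfold wN
  have := Nat.pow_le_pow_right hp.out.pos (show i + 1 ≤ j + 1 by omega)
  omega

theorem wN_lt {i j : ℕ} (h : i < j) : wN p i < wN p j := by
  unfold wN
  have h1 := Nat.pow_lt_pow_right hp.out.one_lt (show i + 1 < j + 1 by omega)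
  have h2 : 0 < p ^ (i + 1) := pow_pos hp.out.pos _
  omega

theorem wN_pos (i : ℕ) : 0 < wN p i := by
  unfold wN
  have h : 1 < p ^ (i + 1) := Nat.one_lt_pow (Nat.succ_ne_zero i) hp.out.one_lt
  omega

/-- the monomials of weight `p ^ (j + 1) - 1` -/
theorem supp_of_weight {j : ℕ} {d : ℕ →₀ ℕ} (hd : Finsupp.weight (wN p) d = wN p j)
    (hne : d ≠ Finsupp.single j 1) {i : ℕ} (hi : d i ≠ 0) : i < j := by
  by_contra hij
  push Not at hij
  have h1 : d = (d - Finsupp.single i 1) + Finsupp.single i 1 := by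
    rw [tsub_add_cancel_of_le]
    rw [Finsupp.single_le_iff]
    omega
  have h2 : Finsupp.weight (wN p) d =
      Finsupp.weight (wN p) (d - Finsupp.single i 1) + wN p i := by
    conv_lhs => rw [h1]
    rw [map_add, Finsupp.weight_single, one_smul]
  have h3 := wN_mono p hij
  have h4 : Finsupp.weight (wN p) (d - Finsupp.single i 1) = 0 := by omega
  have h5 : wN p i = wN p j := by omega
  have h6 : i = j := by
    rcases hij.lt_or_eq with h | h
    · have := wN_lt p h
      omega
    · exact h.symm
  have h7 : d - Finsupp.single i 1 = 0 := by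
    rw [Finsupp.weight_apply, Finsupp.sum, Finset.sum_eq_zero_iff] at h4
    ext l
    by_contra hl
    have h8 := h4 l (Finsupp.mem_support_iff.2 hl)
    rw [smul_eq_mul, Nat.mul_eq_zero] at h8
    rcases h8 with h8 | h8
    · exact hl h8
    · exact (wN_pos p l).ne' h8
  rw [h7, zero_add] at h1
  exact hne (by rw [h1, h6])

variable {R : Type*} [CommRing R]

theorem tri_mem {j : ℕ} {f : MvPolynomial ℕ R} (hf : f.IsWeightedHomogeneous (wN p) (wN p j)) :
    f - C (coeff (Finsupp.single j 1) f) * X j ∈ below R j := by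
  classical
  rw [below, mem_supported]
  intro i hi
  rw [Finset.mem_coe, mem_vars_iff_mem_support] at hi
  obtain ⟨d, hd, hdi⟩ := hi
  rw [mem_support_iff, coeff_sub, coeff_C_mul, coeff_X] at hd
  by_cases h : Finsupp.single j 1 = d
  · rw [if_pos h, mul_one, ← h, sub_self] at hd
    exact absurd rfl hd
  · rw [if_neg h, mul_zero, sub_zero] at hd
    exact supp_of_weight p (hf hd) (fun h' => h h'.symm) (Finsupp.mem_support_iff.1 hdi)

/-- homogeneous substitutions preserve homogeneity -/
theorem aeval_isWH {σ τ : Type*} {w : σ → ℕ} {w' : τ → ℕ} {y : σ → MvPolynomial τ R}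
    (hy : ∀ i, (y i).IsWeightedHomogeneous w' (w i)) {f : MvPolynomial σ R} {m : ℕ}
    (hf : f.IsWeightedHomogeneous w m) : (aeval y f).IsWeightedHomogeneous w' m := by
  classical
  rw [f.as_sum, map_sum]
  refine (weightedHomogeneousSubmodule R w' m).sum_mem fun d hd => ?_
  rw [mem_weightedHomogeneousSubmodule, aeval_monomial, algebraMap_eq]
  have h1 : m = 0 + ∑ i ∈ d.support, d i • w i := by
    rw [zero_add, ← hf (mem_support_iff.1 hd), Finsupp.weight_apply]
    rfl
  rw [h1]
  refine (isWeightedHomogeneous_C _ _).mul ?_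
  rw [Finsupp.prod]
  exact IsWeightedHomogeneous.prod _ _ _ fun i _ => (hy i).pow _

end tri

section haz

variable (p : ℕ) [hp : Fact p.Prime]

/-- reduction modulo `p` -/
noncomputable def redP : MvPolynomial ℕ ℤ →+* MvPolynomial ℕ (ZMod p) :=
  MvPolynomial.map (Int.castRingHom (ZMod p))

theorem redP_X (i : ℕ) : redP p (X i) = X i := by rw [redP, map_X]

/-- Hazewinkel's law modulo `p` -/
noncomputable def hazk : Law (MvPolynomial ℕ (ZMod p)) := (haz p).map (redP p)

theorem homLaw_hazk : HomLaw (wN p) (hazk p) :=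
  homLaw_haz fun k => by
    rw [redP_X]
    exact isWeightedHomogeneous_X _ _ _

/-- the elements `v_{a+1}` of the law -/
noncomputable def vk (a : ℕ) : MvPolynomial ℕ (ZMod p) := vv p (a + 1) (hazk p)

theorem vk_eq_yF (a : ℕ) : vk p a = yF p (hazk p) (p ^ (a + 1) - 2) :=
  (yF_pow_sub hp.out _ (Nat.succ_ne_zero a)).symm

theorem vk_isWH (a : ℕ) : (vk p a).IsWeightedHomogeneous (wN p) (wN p a) := by
  rw [vk_eq_yF]
  have h := (homLaw_hazk p).yF p (p ^ (a + 1) - 2)
  have h3 : 2 ≤ p ^ (a + 1) := two_le_pow hp.out (Nat.succ_ne_zero a)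
  have h4 : p ^ (a + 1) - 2 + 1 = wN p a := by
    unfold wN
    omega
  rwa [h4] at h

theorem natCast_zero : ((p : ℕ) : MvPolynomial ℕ (ZMod p)) = 0 := by
  rw [← map_natCast (C (σ := ℕ) (R := ZMod p)), CharP.cast_eq_zero, map_zero]

theorem coeff_vk (a : ℕ) : coeff (Finsupp.single a 1) (vk p a) = 1 := by
  have h := vv_haz_sub_mem p (redP p) a
  change vk p a - _ ∈ _ at h
  rw [redP_X] at h
  have h2 : HI p (redP p) a = Ideal.span ((fun i : ℕ => (X i : MvPolynomial ℕ (ZMod p))) ''
      {j | j < a}) := by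
    rw [HI, Ideal.span_insert, natCast_zero, Ideal.span_singleton_zero, bot_sup_eq]
    congr 1
    refine Set.image_congr fun j _ => redP_X p j
  rw [h2] at h
  have h3 := (mem_ideal_span_X_image.1 h) (Finsupp.single a 1)
  by_contra hne
  obtain ⟨i, hi, h4⟩ := h3 (by
    rw [mem_support_iff, coeff_sub, coeff_X, if_pos rfl]
    exact sub_ne_zero.2 hne)
  have hi' : i < a := hi
  rw [Finsupp.single_apply, if_neg (by omega)] at h4
  exact h4 rfl

variable (n : ℕ) (x : ℕ → MvPolynomial ℕ (ZMod p))

/-- the new generators -/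
noncomputable def gen (a : ℕ) : MvPolynomial ℕ (ZMod p) := if a < n then vk p a else x a

variable {n x} (hx : ∀ j, n ≤ j → (x j).IsWeightedHomogeneous (wN p) (wN p j))
  (hc : ∀ j, n ≤ j → coeff (Finsupp.single j 1) (x j) ≠ 0)

include hx in
theorem gen_isWH (a : ℕ) : (gen p n x a).IsWeightedHomogeneous (wN p) (wN p a) := by
  unfold gen
  split_ifs with h
  · exact vk_isWH p a
  · exact hx a (by omega)

include hc in
theorem coeff_gen (a : ℕ) : coeff (Finsupp.single a 1) (gen p n x a) ≠ 0 := by
  unfold gen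
  split_ifs with h
  · rw [coeff_vk]
    exact one_ne_zero
  · exact hc a (by omega)

include hx hc in
theorem gen_bijective : Function.Bijective (aeval (R := ZMod p) (gen p n x)) := by
  refine bijective_of_triangular (c := fun a => coeff (Finsupp.single a 1) (gen p n x a))
    (fun a => (coeff_gen p hc a).isUnit)
    (s := fun a => gen p n x a - C (coeff (Finsupp.single a 1) (gen p n x a)) * X a)
    (fun a => tri_mem p (gen_isWH p hx a)) (fun a => ?_)
  rw [aeval_X]
  ring

end haz

section trunc

variable (k : Type) [CommRing k] (n : ℕ)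

/-- `X a ↦ X a` for `a < n`, `X j ↦ 0` for `n ≤ j` -/
noncomputable def trunc : MvPolynomial ℕ k →ₐ[k] MvPolynomial (Fin n) k :=
  aeval fun i => if h : i < n then X ⟨i, h⟩ else 0

variable {n}

theorem trunc_X_lt {i : ℕ} (h : i < n) : trunc k n (X i) = X ⟨i, h⟩ := by
  rw [trunc, aeval_X, dif_pos h]

theorem trunc_X_ge {i : ℕ} (h : n ≤ i) : trunc k n (X i) = 0 := by
  rw [trunc, aeval_X, dif_neg (by omega)]

/-- the section of `trunc` -/
noncomputable def incl : MvPolynomial (Fin n) k →ₐ[k] MvPolynomial ℕ k :=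
  rename (Fin.val : Fin n → ℕ)

theorem trunc_incl (f : MvPolynomial (Fin n) k) : trunc k n (incl k f) = f := by
  have h : (trunc k n).comp (incl k) = AlgHom.id k _ := by
    apply algHom_ext
    intro i
    rw [AlgHom.comp_apply, incl, rename_X, trunc_X_lt k i.2]
    rfl
  exact congrArg (fun g => g f) h

theorem trunc_surjective : Function.Surjective (trunc k n) := fun f => ⟨_, trunc_incl k f⟩

theorem sub_incl_trunc_mem (f : MvPolynomial ℕ k) :
    f - incl k (trunc k n f) ∈ Ideal.span (X '' {j : ℕ | n ≤ j} : Set (MvPolynomial ℕ k)) := by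
  induction f using MvPolynomial.induction_on with
  | C a =>
    rw [← algebraMap_eq, AlgHom.commutes, AlgHom.commutes, sub_self]
    exact Ideal.zero_mem _
  | add f g hf hg =>
    have h : f + g - incl k (trunc k n (f + g)) =
        (f - incl k (trunc k n f)) + (g - incl k (trunc k n g)) := by
      rw [map_add, map_add]
      ring
    rw [h]
    exact Ideal.add_mem _ hf hg
  | mul_X f i hf =>
    by_cases hi : i < n
    · have h : f * X i - incl k (trunc k n (f * X i)) =
          (f - incl k (trunc k n f)) * X i := by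
        rw [map_mul, map_mul, trunc_X_lt k hi, incl, rename_X]
        ring
      rw [h]
      exact Ideal.mul_mem_right _ _ hf
    · have h : f * X i - incl k (trunc k n (f * X i)) = f * X i := by
        rw [map_mul, map_mul, trunc_X_ge k (by omega), map_zero, mul_zero, sub_zero]
      rw [h]
      exact Ideal.mul_mem_left _ _ (Ideal.subset_span ⟨i, (not_lt.1 hi : n ≤ i), rfl⟩)

theorem trunc_eq_zero_iff (f : MvPolynomial ℕ k) : trunc k n f = 0 ↔
    f ∈ Ideal.span (X '' {j : ℕ | n ≤ j} : Set (MvPolynomial ℕ k)) := by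
  constructor
  · intro h
    have h1 := sub_incl_trunc_mem (n := n) k f
    rwa [h, map_zero, sub_zero] at h1
  · intro h
    have h1 : Ideal.span (X '' {j : ℕ | n ≤ j} : Set (MvPolynomial ℕ k)) ≤
        RingHom.ker (trunc k n) := by
      rw [Ideal.span_le]
      rintro _ ⟨j, hj, rfl⟩
      exact trunc_X_ge k hj
    exact h1 h

end trunc

section pi

variable (p : ℕ) [hp : Fact p.Prime] {n : ℕ} {x : ℕ → MvPolynomial ℕ (ZMod p)}
  (hx : ∀ j, n ≤ j → (x j).IsWeightedHomogeneous (wN p) (wN p j))
  (hc : ∀ j, n ≤ j → coeff (Finsupp.single j 1) (x j) ≠ 0)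

/-- the change of generators -/
noncomputable def genE : MvPolynomial ℕ (ZMod p) ≃ₐ[ZMod p] MvPolynomial ℕ (ZMod p) :=
  AlgEquiv.ofBijective (aeval (gen p n x)) (gen_bijective p hx hc)

theorem genE_X_lt {a : ℕ} (h : a < n) : genE p hx hc (X a) = vk p a := by
  change aeval (gen p n x) (X a) = _
  rw [aeval_X, gen, if_pos h]

theorem genE_X_ge {a : ℕ} (h : n ≤ a) : genE p hx hc (X a) = x a := by
  change aeval (gen p n x) (X a) = _
  rw [aeval_X, gen, if_neg (by omega)]

/-- the quotient map -/
noncomputable def qpi : MvPolynomial ℕ (ZMod p) →ₐ[ZMod p] MvPolynomial (Fin n) (ZMod p) :=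
  (trunc (ZMod p) n).comp (genE p hx hc).symm.toAlgHom

theorem qpi_apply (f : MvPolynomial ℕ (ZMod p)) :
    qpi p hx hc f = trunc (ZMod p) n ((genE p hx hc).symm f) := rfl

theorem qpi_vk (a : Fin n) : qpi p hx hc (vk p a) = X a := by
  rw [qpi_apply, ← genE_X_lt p hx hc a.2, AlgEquiv.symm_apply_apply, trunc_X_lt _ a.2]

theorem qpi_surjective : Function.Surjective (qpi p hx hc) :=
  (trunc_surjective _).comp (genE p hx hc).symm.surjective

/-- **the kernel** is generated by the `x j` -/
theorem qpi_eq_zero_iff (f : MvPolynomial ℕ (ZMod p)) :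
    qpi p hx hc f = 0 ↔ f ∈ Ideal.span (x '' {j : ℕ | n ≤ j}) := by
  rw [qpi_apply, trunc_eq_zero_iff]
  have h1 : Ideal.span (x '' {j : ℕ | n ≤ j}) =
      (Ideal.span (X '' {j : ℕ | n ≤ j} : Set (MvPolynomial ℕ (ZMod p)))).map
        (genE p hx hc : MvPolynomial ℕ (ZMod p) →+* MvPolynomial ℕ (ZMod p)) := by
    rw [Ideal.map_span, Set.image_image]
    congr 1
    refine Set.image_congr fun j hj => ?_
    exact (genE_X_ge p hx hc hj).symm
  rw [h1]
  constructor
  · intro h
    have := Ideal.mem_map_of_mem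
      (genE p hx hc : MvPolynomial ℕ (ZMod p) →+* MvPolynomial ℕ (ZMod p)) h
    simpa using this
  · intro h
    have h2 := Ideal.mem_map_of_mem
      ((genE p hx hc).symm : MvPolynomial ℕ (ZMod p) →+* MvPolynomial ℕ (ZMod p)) h
    rw [Ideal.map_map] at h2
    have h3 : ((genE p hx hc).symm : MvPolynomial ℕ (ZMod p) →+* MvPolynomial ℕ (ZMod p)).comp
        (genE p hx hc : MvPolynomial ℕ (ZMod p) →+* MvPolynomial ℕ (ZMod p)) = RingHom.id _ := by
      refine RingHom.ext fun f => ?_
      exact (genE p hx hc).symm_apply_apply f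
    rw [h3, Ideal.map_id] at h2
    exact h2

/-- the inverse of the change of generators is homogeneous -/
theorem genE_symm_isWH {f : MvPolynomial ℕ (ZMod p)} {m : ℕ}
    (hf : f.IsWeightedHomogeneous (wN p) m) :
    ((genE p hx hc).symm f).IsWeightedHomogeneous (wN p) m := by
  classical
  set g := (genE p hx hc).symm f with hg
  have h1 : genE p hx hc g = f := AlgEquiv.apply_symm_apply _ _
  have h2 : ∀ {h : MvPolynomial ℕ (ZMod p)} {l : ℕ}, h.IsWeightedHomogeneous (wN p) l →
      (genE p hx hc h).IsWeightedHomogeneous (wN p) l := fun hh => aeval_isWH (gen_isWH p hx) hh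
  have h3 : genE p hx hc (weightedHomogeneousComponent (wN p) m g) = f := by
    have h4 : weightedHomogeneousComponent (wN p) m f = f :=
      hf.weightedHomogeneousComponent_same
    have hfin := weightedHomogeneousComponent_finsupp (w := wN p) (φ := g)
    have h5 : g = ∑ l ∈ hfin.toFinset, weightedHomogeneousComponent (wN p) l g := by
      conv_lhs => rw [← sum_weightedHomogeneousComponent (wN p) g]
      exact finsum_eq_sum _ hfin
    have h6 : f = ∑ l ∈ hfin.toFinset, genE p hx hc (weightedHomogeneousComponent (wN p) l g) := by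
      rw [← map_sum, ← h5, h1]
    have h7 : weightedHomogeneousComponent (wN p) m f =
        ∑ l ∈ hfin.toFinset, weightedHomogeneousComponent (wN p) m
          (genE p hx hc (weightedHomogeneousComponent (wN p) l g)) := by
      conv_lhs => rw [h6]
      rw [map_sum]
    rw [h4] at h7
    rw [h7]
    have h8 : ∀ l ∈ hfin.toFinset, weightedHomogeneousComponent (wN p) m
          (genE p hx hc (weightedHomogeneousComponent (wN p) l g)) =
        if l = m then genE p hx hc (weightedHomogeneousComponent (wN p) l g) else 0 := by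
      intro l _
      have h9 := h2 (weightedHomogeneousComponent_isWeightedHomogeneous (w := wN p) l g)
      split_ifs with hl
      · subst hl
        exact h9.weightedHomogeneousComponent_same
      · exact h9.weightedHomogeneousComponent_ne m (fun h => hl h.symm)
    rw [Finset.sum_congr rfl h8, Finset.sum_ite_eq']
    split_ifs with hm
    · rfl
    · have hm' := mt (Set.Finite.mem_toFinset hfin).2 hm
      rw [Function.mem_support, not_not] at hm'
      rw [hm', map_zero]
  have h4 : g = weightedHomogeneousComponent (wN p) m g :=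
    (genE p hx hc).injective (h1.trans h3.symm)
  rw [h4]
  exact weightedHomogeneousComponent_isWeightedHomogeneous m g

theorem trunc_isWH {f : MvPolynomial ℕ (ZMod p)} {m : ℕ}
    (hf : f.IsWeightedHomogeneous (wN p) m) :
    (trunc (ZMod p) n f).IsWeightedHomogeneous (fun a : Fin n => wN p a) m := by
  refine aeval_isWH (fun i => ?_) hf
  split_ifs with h
  · exact isWeightedHomogeneous_X _ _ _
  · exact isWeightedHomogeneous_zero _ _ _

theorem qpi_isWH {f : MvPolynomial ℕ (ZMod p)} {m : ℕ}
    (hf : f.IsWeightedHomogeneous (wN p) m) :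
    (qpi p hx hc f).IsWeightedHomogeneous (fun a : Fin n => wN p a) m :=
  trunc_isWH p (genE_symm_isWH p hx hc hf)

/-- the law of the form -/
noncomputable def lawS : Law (MvPolynomial (Fin n) (ZMod p)) :=
  (hazk p).map (qpi p hx hc : MvPolynomial ℕ (ZMod p) →+* MvPolynomial (Fin n) (ZMod p))

theorem lawS_eq : lawS p hx hc = (haz p).map
    ((qpi p hx hc : MvPolynomial ℕ (ZMod p) →+* MvPolynomial (Fin n) (ZMod p)).comp (redP p)) := by
  rw [lawS, hazk, Law.map_map]

theorem homLaw_lawS : HomLaw (fun a : Fin n => wN p a) (lawS p hx hc) := by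
  rw [lawS_eq]
  refine homLaw_haz fun k => ?_
  rw [RingHom.comp_apply, redP_X]
  exact qpi_isWH p hx hc (isWeightedHomogeneous_X _ _ _)

theorem lift_lawS (z : Laz) : Laz.lift (lawS p hx hc) z = qpi p hx hc (Laz.lift (hazk p) z) := by
  rw [lawS, ← Laz.map_lift]
  rfl

theorem vv_lawS (a : Fin n) : vv p ((a : ℕ) + 1) (lawS p hx hc) = X a := by
  rw [lawS, vv_map]
  exact qpi_vk p hx hc a

end pi

end Vale.Agent.P221.H924
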