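import Vale.Agent.P257.H80.HazWt
import Vale.Agent.P257.H80.HazVV
import Vale.Agent.P251.F.Grade

/-!
# P221 (helper924): homogeneous polynomials and rescaling

* `sc w` : the rescaling `X_i ↦ T ^ (w i) X_i`, `MvPolynomial σ R → (MvPolynomial σ R)[T;T⁻¹]`;
* `isWeightedHomogeneous_iff_sc`;
* `lift_isHomog` : the values of a homogeneous law on the elements of `Laz` of weight `w` are
  homogeneous of weight `w`.
-/

namespace Vale.Agent.P221.H924

open Vale.Agent.P251.F Vale.Agent.P257.H80
open LaurentPolynomial (T)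

set_option linter.unusedSectionVars false

section scale

variable {σ R : Type} [CommRing R] (w : σ → ℕ)

/-- the rescaling `X_i ↦ T ^ (w i) X_i` -/
noncomputable def sc : MvPolynomial σ R →+* LaurentPolynomial (MvPolynomial σ R) :=
  MvPolynomial.eval₂Hom (LaurentPolynomial.C.comp MvPolynomial.C) fun i =>
    LaurentPolynomial.C (MvPolynomial.X i) * T (w i : ℤ)

theorem sc_C (r : R) : sc w (MvPolynomial.C r) = LaurentPolynomial.C (MvPolynomial.C r) := by
  rw [sc, MvPolynomial.eval₂Hom_C]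
  rfl

theorem sc_X (i : σ) : sc (R := R) w (MvPolynomial.X i) =
    LaurentPolynomial.C (MvPolynomial.X i) * T (w i : ℤ) := by
  rw [sc, MvPolynomial.eval₂Hom_X']

theorem sc_monomial (d : σ →₀ ℕ) (r : R) : sc w (MvPolynomial.monomial d r) =
    LaurentPolynomial.C (MvPolynomial.monomial d r) * T ((Finsupp.weight w d : ℕ) : ℤ) := by
  rw [MvPolynomial.monomial_eq, map_mul, sc_C, Finsupp.prod, map_prod, map_mul, map_prod,
    mul_assoc]
  congr 1
  have h1 : ∀ i ∈ d.support, sc (R := R) w (MvPolynomial.X i ^ d i) =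
      LaurentPolynomial.C (MvPolynomial.X i ^ d i) * T ((d i * w i : ℕ) : ℤ) := by
    intro i _
    rw [map_pow, sc_X, mul_pow, LaurentPolynomial.T_pow, map_pow]
    push_cast
    rfl
  rw [Finset.prod_congr rfl h1, Finset.prod_mul_distrib]
  congr 1
  rw [Finsupp.weight_apply, Finsupp.sum]
  have h2 : ∀ (s : Finset σ) (f : σ → ℕ), ∏ i ∈ s, (T ((f i : ℕ) : ℤ) :
      LaurentPolynomial (MvPolynomial σ R)) = T ((∑ i ∈ s, f i : ℕ) : ℤ) := by
    classical
    intro s f
    induction s using Finset.induction_on with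
    | empty => simp
    | insert a s ha ih =>
      rw [Finset.prod_insert ha, Finset.sum_insert ha, ih, ← LaurentPolynomial.T_add]
      push_cast
      rfl
  rw [h2]
  rfl

theorem coeff_sc (f : MvPolynomial σ R) (v : ℤ) (d : σ →₀ ℕ) :
    MvPolynomial.coeff d ((sc w f).coeff v) =
      if ((Finsupp.weight w d : ℕ) : ℤ) = v then MvPolynomial.coeff d f else 0 := by
  classical
  induction f using MvPolynomial.induction_on' with
  | monomial e r =>
    rw [sc_monomial, Vale.Agent.P251.F.coeff_C_mul_T]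
    by_cases he : e = d
    · subst he
      split_ifs
      · rfl
      · rfl
    · rw [MvPolynomial.coeff_monomial, if_neg he, ite_self]
      split_ifs
      · rw [MvPolynomial.coeff_monomial, if_neg he]
      · rfl
  | add f g hf hg =>
    rw [map_add]
    change MvPolynomial.coeff d ((sc w f).coeff v + (sc w g).coeff v) = _
    rw [MvPolynomial.coeff_add, hf, hg, MvPolynomial.coeff_add]
    split_ifs
    · rfl
    · rw [add_zero]

theorem sc_eq_of_isWeightedHomogeneous {f : MvPolynomial σ R} {m : ℕ}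
    (h : f.IsWeightedHomogeneous w m) : sc w f = LaurentPolynomial.C f * T (m : ℤ) := by
  ext v d
  rw [coeff_sc, Vale.Agent.P251.F.coeff_C_mul_T]
  by_cases hd : MvPolynomial.coeff d f = 0
  · rw [hd, ite_self]
    split_ifs
    · exact hd.symm
    · rfl
  · rw [h hd]
    split_ifs
    · rfl
    · rfl

theorem isWeightedHomogeneous_of_sc {f : MvPolynomial σ R} {m : ℕ}
    (h : sc w f = LaurentPolynomial.C f * T (m : ℤ)) : f.IsWeightedHomogeneous w m := by
  intro d hd
  have h1 := coeff_sc w f ((Finsupp.weight w d : ℕ) : ℤ) d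
  rw [if_pos rfl, h, Vale.Agent.P251.F.coeff_C_mul_T] at h1
  by_contra hne
  rw [if_neg (fun h2 => hne (Nat.cast_injective h2).symm), MvPolynomial.coeff_zero] at h1
  exact hd h1.symm

theorem eq_zero_of_sc {f : MvPolynomial σ R} {v : ℤ} (hv : v < 0)
    (h : sc w f = LaurentPolynomial.C f * T v) : f = 0 := by
  ext d
  have h1 := coeff_sc w f ((Finsupp.weight w d : ℕ) : ℤ) d
  rw [if_pos rfl, h, Vale.Agent.P251.F.coeff_C_mul_T, if_neg (by omega),
    MvPolynomial.coeff_zero] at h1
  rw [← h1, MvPolynomial.coeff_zero]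

end scale

section law

variable {σ R : Type} [CommRing R] (w : σ → ℕ)

/-- the effect of rescaling on the elements of weight `v` of `Laz` -/
theorem lift_lin {B : Type} [CommRing B] (G : Law B) (u : Bˣ) {v : ℤ} {z : Laz}
    (hz : Cob.IsWt v (MvPolynomial.C z : Cob Laz 0)) :
    Laz.lift ((InvSeries.lin u)⁻¹ • G) z = ((u ^ v : Bˣ) : B) * Laz.lift G z := by
  have h := hz B ((Cob.univ Laz 0).map (MvPolynomial.eval₂Hom (Laz.lift G) fun _ => 0)) u
  rw [Cob.ev_C, Cob.ev_C] at h
  have h1 : ((Cob.univ Laz 0).map (MvPolynomial.eval₂Hom (Laz.lift G) fun _ => 0)).pt =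
      Laz.lift G := by
    rw [Chain.map_pt, Cob.univ_pt]
    exact RingHom.ext fun a => by simp
  rw [h1] at h
  rw [← h]
  change _ = LawRing.act (InvSeries.lin u)⁻¹
    ((Cob.univ Laz 0).map (MvPolynomial.eval₂Hom (Laz.lift G) fun _ => 0)).pt z
  rw [h1, Laz.act_eq, Laz.univ_map_lift]

/-- a law over a weighted polynomial ring is homogeneous -/
def HomLaw (G : Law (MvPolynomial σ R)) : Prop :=
  G.map (sc w) = (InvSeries.lin (unitT (MvPolynomial σ R)))⁻¹ •
    G.map (LaurentPolynomial.C : _ →+* LaurentPolynomial (MvPolynomial σ R))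

variable {w}

theorem HomLaw.sc_lift {G : Law (MvPolynomial σ R)} (h : HomLaw w G) {v : ℤ} {z : Laz}
    (hz : Cob.IsWt v (MvPolynomial.C z : Cob Laz 0)) :
    sc w (Laz.lift G z) = LaurentPolynomial.C (Laz.lift G z) * T v := by
  rw [Laz.map_lift, h, lift_lin _ _ hz, unitT_zpow, ← Laz.map_lift, mul_comm]

/-- **Homogeneity of the values** -/
theorem HomLaw.lift {G : Law (MvPolynomial σ R)} (h : HomLaw w G) {v : ℕ} {z : Laz}
    (hz : Cob.IsWt (v : ℤ) (MvPolynomial.C z : Cob Laz 0)) :
    (Laz.lift G z).IsWeightedHomogeneous w v :=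
  isWeightedHomogeneous_of_sc w (h.sc_lift hz)

theorem HomLaw.lift_neg {G : Law (MvPolynomial σ R)} (h : HomLaw w G) {v : ℤ} (hv : v < 0)
    {z : Laz} (hz : Cob.IsWt v (MvPolynomial.C z : Cob Laz 0)) : Laz.lift G z = 0 :=
  eq_zero_of_sc w hv (h.sc_lift hz)

theorem HomLaw.yF {G : Law (MvPolynomial σ R)} (h : HomLaw w G) (p n : ℕ) :
    (yF p G n).IsWeightedHomogeneous w (n + 1) := by
  apply isWeightedHomogeneous_of_sc
  rw [map_yF, h, yF_lin_inv_smul, ← map_yF, mul_comm]
  congr 1
  have h3 := unitT_zpow (MvPolynomial σ R) ((n + 1 : ℕ) : ℤ)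
  rw [← h3, zpow_natCast, Units.val_pow_eq_pow_val]

/-- a specialisation of Hazewinkel's law is homogeneous if the `v_i` have the right weights -/
theorem homLaw_haz {p : ℕ} [Fact p.Prime] {φ : MvPolynomial ℕ ℤ →+* MvPolynomial σ R}
    (h : ∀ k, (φ (MvPolynomial.X k)).IsWeightedHomogeneous w (p ^ (k + 1) - 1)) :
    HomLaw w ((haz p).map φ) := by
  unfold HomLaw
  rw [Law.map_map, Law.map_map]
  refine haz_lin p _ fun k => ?_
  rw [RingHom.comp_apply, RingHom.comp_apply, sc_eq_of_isWeightedHomogeneous w (h k), mul_comm]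
  congr 1
  have h3 := unitT_zpow (MvPolynomial σ R) ((p ^ (k + 1) - 1 : ℕ) : ℤ)
  rw [← h3, zpow_natCast, Units.val_pow_eq_pow_val]

end law

end Vale.Agent.P221.H924
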