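import Vale.Agent.P221.H924.Mod

/-!
# P221 (helper924): the Brown-Peterson spectrum of the statement layer modulo `p`

* `BPOut`, `exists_bpOut` : the map `κ : π_{2*} BP → k[v_1, v_2, …]`;
* `exists_form` : forms of `BP⟨n⟩_p` as modules over `MU`.
-/

open CategoryTheory MonoidalCategory MonObj Limits Pretriangulated

set_option linter.unusedSectionVars false

noncomputable section

namespace Vale.Agent.P221.H924

open Vale.Agent.P251 Vale.Agent.P251.S Vale.Agent.P251.T Vale.Agent.P251.M Vale.Agent.P251.F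
  Vale.Agent.P251.I EvenSpheres Vale.Agent.P257.H702 Vale.Agent.P257.H80 Vale.Agent.P251.Q
  Vale.Agent.P251.St Vale.Agent.P257.St Vale.Agent.P221.H746 Vale.Agent.P093.N0

variable {T : SHCat} {S : Susp T} {p : ℕ} [hp : Fact p.Prime] {n : ℕ}

section bp

variable {P : RingSp T} {o : St.Oriented S P} {φ : P257.St.GHom S p P} {D : MUData T.C}

/-- the homotopy of `BP` modulo `p` -/
structure BPOut (D : MUData T.C) (φ : P257.St.GHom S p P) (b : D.R ⟶ P.obj) [IsMonHom b]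
    (κ : HRing (stdEven T.C) P.obj →+* MvPolynomial ℕ (ZMod p)) : Prop where
  mon : IsBPMon p b
  good : Good p P.obj
  surj : Function.Surjective κ
  ker : ∀ y, κ y = 0 → ∃ y', y = (p : HRing (stdEven T.C) P.obj) * y'
  law : (lawOf b).map κ = hazk p
  deg : ∀ (n : ℕ) (x : ℕ → MvPolynomial ℕ (ZMod p))
    (hx : ∀ j, n ≤ j → (x j).IsWeightedHomogeneous (wN p) (wN p j))
    (hc : ∀ j, n ≤ j → MvPolynomial.coeff (Finsupp.single j 1) (x j) ≠ 0)
    (w : ℤ) (y : (stdEven T.C).S w ⟶ P.obj),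
    (qpi p hx hc (κ (HRing.of (stdEven T.C) P.obj w y))).IsWeightedHomogeneous (wV p n) w
  gen : ∀ (x : ∀ j : ℕ, SHCat.Hom (S.obj (Cn (p ^ j - 1))) P.obj) (j : ℕ),
    P221.St.IsPolyGen φ (j + 1) (x (j + 1)) →
      (κ (xc (xE x) j)).IsWeightedHomogeneous (wN p) (wN p j) ∧
        MvPolynomial.coeff (Finsupp.single j 1) (κ (xc (xE x) j)) ≠ 0

theorem exists_bpOut (hD : MUUniv (M.lineIso S.toSpaceFunctor) D) (hA : MUAll D)
    (U : MUFam (M.lineIso S.toSpaceFunctor) D) (h : P257.St.IsBrownPeterson p o φ) :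
    ∃ (b : D.R ⟶ P.obj) (_ : IsMonHom b)
      (κ : HRing (stdEven T.C) P.obj →+* MvPolynomial ℕ (ZMod p)), BPOut D φ b κ := by
  obtain ⟨b, hb, ho⟩ := U.exists_mapS o
  have hmon : IsBPMon p b := isBPMon_of_isBrownPeterson ptypOut hD U ptypIn h ho
  obtain ⟨κ, hs, hk, hl⟩ := exists_kappa hD hA hmon
  obtain ⟨Φ, hφ, hΦ⟩ := ptypOut P o φ h.typ
  have hcomp : κ.comp Φ = redP p := by
    refine kappa_comp hΦ ?_
    rw [U.lawS_eq ho]
    exact hl
  exact ⟨b, hb, κ, hmon, good_bp hD hA hmon, hs, hk, hl,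
    fun n x hx hc w y => qpi_kappa_isWH hx hc hD hA hmon hl w y,
    fun x j hj => kappa_polyGen hφ hcomp hj⟩

end bp

section form

variable {D : MUData T.C} {M : T.C} {i : 𝟙_ T.C ⟶ M} {δ : M ⟶ (𝟙_ T.C)⟦(1 : ℤ)⟧}

/-- the homotopy of an `MU`-module `N` is `k[v_1, …, v_n]`, with the action given by a form -/
structure FormOut (D : MUData T.C) {N : T.C} (L : ModStr D.R N) (Q : Form p n) where
  /-- the action of `π_* MU` -/
  χ : HRing (stdEven T.C) D.R →+* MvPolynomial (Fin n) (ZMod p)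
  law : D.law.map χ = Q.law
  odd : ∀ (k : ℤ) (f : (𝟙_ T.C)⟦2 * k + 1⟧ ⟶ N), f = 0
  /-- the isomorphism -/
  Θ : ∀ i : ℤ, ((stdEven T.C).S i ⟶ N) ≃+ PH p n i
  smul : ∀ {w i j : ℤ} (h : w + i = j) (a : (stdEven T.C).S w ⟶ D.R) (f : (stdEven T.C).S i ⟶ N),
    (Θ j (gsmul L h a f) : MvPolynomial (Fin n) (ZMod p)) =
      χ (HRing.of (stdEven T.C) D.R w a) * (Θ i f : MvPolynomial (Fin n) (ZMod p))

variable {P : RingSp T} {φ : P257.St.GHom S p P} {b : D.R ⟶ P.obj} [IsMonHom b]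
  {κ : HRing (stdEven T.C) P.obj →+* MvPolynomial ℕ (ZMod p)}
  {x : ∀ j : ℕ, SHCat.Hom (S.obj (Cn (p ^ j - 1))) P.obj}

/-- the form of a quotient -/
theorem exists_formOut (hκ : BPOut D φ b κ) (hx : ∀ j, n < j → P221.St.IsPolyGen φ j (x j))
    {N : T.C} {MN : ModStr P.obj N} {r : P.obj ⟶ N} (h : QOut n x κ MN r) (L : ModStr D.R N)
    (hL : L.act = (b ▷ N) ≫ MN.act) : ∃ Q : Form p n, Nonempty (FormOut D L Q) := by
  have hx1 : ∀ j, n ≤ j → (κ (xc (xE x) j)).IsWeightedHomogeneous (wN p) (wN p j) := fun j hj =>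
    (hκ.gen x j (hx _ (Nat.lt_succ_iff.2 hj))).1
  have hx2 : ∀ j, n ≤ j → MvPolynomial.coeff (Finsupp.single j 1) (κ (xc (xE x) j)) ≠ 0 :=
    fun j hj => (hκ.gen x j (hx _ (Nat.lt_succ_iff.2 hj))).2
  let χ : HRing (stdEven T.C) P.obj →+* MvPolynomial (Fin n) (ZMod p) :=
    (qpi p (x := fun j => κ (xc (xE x) j)) hx1 hx2 :
      MvPolynomial ℕ (ZMod p) →+* MvPolynomial (Fin n) (ZMod p)).comp κ
  have hs : Function.Surjective χ := (qpi_surjective p hx1 hx2).comp hκ.surj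
  have hd : ∀ (w : ℤ) (u : (stdEven T.C).S w ⟶ P.obj),
      (χ (HRing.of (stdEven T.C) P.obj w u)).IsWeightedHomogeneous (wV p n) w := fun w u =>
    hκ.deg n _ hx1 hx2 w u
  have hk : ∀ (w : ℤ) (u : (stdEven T.C).S w ⟶ P.obj),
      u ≫ r = 0 ↔ χ (HRing.of (stdEven T.C) P.obj w u) = 0 := fun w u =>
    (h.ker w u).trans (qpi_eq_zero_iff p hx1 hx2 _).symm
  obtain ⟨Θ, h1, h2⟩ := exists_theta (MN := MN) h.lin h.surj hs hd hk
  refine ⟨formS p hx1 hx2, ⟨⟨χ.comp (HRing.map b), ?_, h.odd, Θ, ?_⟩⟩⟩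
  · rw [formS_law, lawS, ← hκ.law, Law.map_map, lawOf, Law.map_map]
  · intro w i j hw a f
    have h3 : gsmul L hw a f = gsmul MN hw (a ≫ b) f := by
      unfold gsmul
      rw [EvenSpheres.ext_comp_left, Category.assoc, hL]
    rw [h3, h2]
    change _ = χ (HRing.map b (HRing.of (stdEven T.C) D.R w a)) * _
    rw [HRing.map_of]

/-- **(E2)** forms of `BP⟨n⟩_p` in the sense of the statement layer -/
theorem exists_form (hD : MUUniv (P251.M.lineIso S.toSpaceFunctor) D) (hA : MUAll D)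
    (U : MUFam (P251.M.lineIso S.toSpaceFunctor) D)
    (hM : Triangle.mk ((p : ℤ) • 𝟙 (𝟙_ T.C)) i δ ∈ distTriang T.C) {B : T.C}
    (hB : P221.St.IsForm S p n B) :
    ∃ (L : ModStr D.R B) (Q : Form p n), Nonempty (FormOut D (L.tensorRight M) Q) := by
  obtain ⟨P, o, φ, x, a, q, hP, hx, -, ha, hq, hm⟩ := hB
  obtain ⟨b, _, κ, hκ⟩ := exists_bpOut hD hA U hP
  obtain ⟨h1, h2⟩ := hm M ⟨i, δ, hM⟩
  have h3 : QOut n x κ ((modOf ha).tensorRight M) (q ≫ rdM i B) :=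
    qOut_of_mod hκ.good hκ.surj hκ.ker hM (modOf ha) hq h1 h2
  refine ⟨(modOf ha).restr b, exists_formOut hκ hx h3 _ ?_⟩
  change (α_ D.R B M).inv ≫ ((b ▷ B) ≫ a) ▷ M = (b ▷ (B ⊗ M)) ≫ (α_ P.obj B M).inv ≫ (a ▷ M)
  rw [comp_whiskerRight, associator_inv_naturality_left_assoc]

end form

end Vale.Agent.P221.H924
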