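import Vale.Agent.P221.H924.Theta
import Vale.Agent.P221.H746.Kap

/-!
# P221 (helper924): degrees of `κ`

`κ : π_{2*} B → k[v_1, v_2, …]` maps `π_{2w} B` to polynomials of weight `w`.
-/

open CategoryTheory MonoidalCategory MonObj Limits Pretriangulated

set_option linter.unusedSectionVars false

noncomputable section

universe u

namespace Vale.Agent.P221.H924

open Vale.Agent.P251 Vale.Agent.P251.S Vale.Agent.P251.T Vale.Agent.P251.M Vale.Agent.P251.F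
  Vale.Agent.P251.I EvenSpheres Vale.Agent.P257.H80 Vale.Agent.P251.Q Vale.Agent.P221.H746
  Vale.Agent.P093.N0

variable {𝒯 : Type u} [Category.{0} 𝒯] [Preadditive 𝒯] [HasZeroObject 𝒯]
    [HasShift 𝒯 ℤ] [∀ n : ℤ, (shiftFunctor 𝒯 n).Additive] [Pretriangulated 𝒯] [IsTriangulated 𝒯]
    [MonoidalCategory 𝒯] [SymmetricCategory 𝒯] [TensorTriangulated 𝒯] [MonoidalClosed 𝒯]
    [HasCoproducts.{0} 𝒯] [HasProducts.{0} 𝒯] [StableCat 𝒯]

variable {D : MUData 𝒯} {p : ℕ} [hp : Fact p.Prime]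

section ring

variable {K : 𝒯} [MonObj K] [IsCommMonObj K]

/-- homogeneous elements of a localization of `MU`, with degrees -/
theorem exists_lift_wt (hA : MUAll D) {l : D.R ⟶ K} [IsMonHom l] (hl : IsLocPi p l) (w : ℤ)
    (y : (stdEven 𝒯).S w ⟶ K) : ∃ (z : Laz) (y' : HRing (stdEven 𝒯) K),
      Cob.IsWt w (MvPolynomial.C z : Cob Laz 0) ∧
      HRing.of (stdEven 𝒯) K w y = Laz.lift (lawOf l) z + (p : HRing (stdEven 𝒯) K) * y' := by
  obtain ⟨C, i, δ, hC⟩ := exists_moore (𝒯 := 𝒯) (p : ℤ)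
  obtain ⟨m, x, hm, hx⟩ := hl.num' ⟨2 * w, ⟨stdSph w⟩⟩ y
  obtain ⟨z, a', c, hwt, hz, h1⟩ := am_surj hA hC w (x ≫ Am.v D.R (0 : Fin 1))
  obtain ⟨s, t, hst⟩ := exists_bezout hp.out hm
  obtain ⟨z', rfl⟩ := exists_C z
  have h2 : x = (a' + (p : ℤ) • c) ≫ amOne D.R := by
    rw [← h1, Category.assoc, v_amOne, Category.comp_id]
  have h3 : HRing.of (stdEven 𝒯) K w (a' ≫ amOne D.R ≫ l) = Laz.lift (lawOf l) z' := by
    rw [lift_lawOf, evK, RingHom.comp_apply, hz, HRing.map_of]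
  have h4 : y = s • (a' ≫ amOne D.R ≫ l) + (p : ℤ) • (s • (c ≫ amOne D.R ≫ l) + t • y) := by
    have h5 : m • y = a' ≫ amOne D.R ≫ l + (p : ℤ) • (c ≫ amOne D.R ≫ l) := by
      rw [hx, h2]
      simp only [Preadditive.add_comp, Preadditive.zsmul_comp, Category.assoc]
    have h6 : y = s • (m • y) + (p : ℤ) • (t • y) := by
      rw [smul_smul, smul_smul, ← add_smul, mul_comm (p : ℤ) t, hst, one_smul]
    conv_lhs => rw [h6, h5]
    simp only [smul_add, smul_comm s (p : ℤ)]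
    abel
  refine ⟨s • z', HRing.of (stdEven 𝒯) K w (s • (c ≫ amOne D.R ≫ l) + t • y), ?_, ?_⟩
  · rw [map_zsmul]
    exact AddSubgroup.zsmul_mem (Cob.wt Laz 0 w) hwt s
  · conv_lhs => rw [h4]
    rw [of_add', of_zsmul', of_zsmul', h3, map_zsmul, zsmul_eq_mul, Int.cast_natCast]

end ring

section bp

variable {F : SpaceFunctor 𝒯} {e : F.S.obj CCF ≅ (stdEven 𝒯).L}
  {B : 𝒯} [MonObj B] [IsCommMonObj B] {b : D.R ⟶ B} [IsMonHom b]

/-- homogeneous elements of the homotopy of `BP`, with degrees -/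
theorem exists_lift_bp (hD : MUUniv e D) (hA : MUAll D) (hb : IsBPMon p b) (w : ℤ)
    (y : (stdEven 𝒯).S w ⟶ B) : ∃ (z : Laz) (y' : HRing (stdEven 𝒯) B),
      Cob.IsWt w (MvPolynomial.C z : Cob Laz 0) ∧
      HRing.of (stdEven 𝒯) B w y = Laz.lift (lawOf b) z + (p : HRing (stdEven 𝒯) B) * y' := by
  obtain ⟨Rp, _, _, l, _, hl, f, _, g, _, hlg, hfg, hbf⟩ := exists_retract hD hb
  obtain ⟨z, y', hz, h⟩ := exists_lift_wt hA (IsPLoc.isLocPi hl) w (y ≫ f)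
  refine ⟨z, HRing.map g y', hz, ?_⟩
  have h2 : HRing.of (stdEven 𝒯) B w y = HRing.map g (HRing.of (stdEven 𝒯) Rp w (y ≫ f)) := by
    rw [HRing.map_of, Category.assoc, hfg, Category.comp_id]
  rw [h2, h, map_add, map_mul, map_natCast, Laz.map_lift, ← lawOf_comp, lawOf_congr hlg]

variable {κ : HRing (stdEven 𝒯) B →+* MvPolynomial ℕ (ZMod p)}

theorem kappa_eq_lift (hD : MUUniv e D) (hA : MUAll D) (hb : IsBPMon p b)
    (hκ : (lawOf b).map κ = hazk p) (w : ℤ) (y : (stdEven 𝒯).S w ⟶ B) :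
    ∃ z : Laz, Cob.IsWt w (MvPolynomial.C z : Cob Laz 0) ∧
      κ (HRing.of (stdEven 𝒯) B w y) = Laz.lift (hazk p) z := by
  obtain ⟨z, y', hz, h⟩ := exists_lift_bp hD hA hb w y
  exact ⟨z, hz, by rw [h, map_add, map_mul, map_natCast, natCast_zero, zero_mul, add_zero,
    Laz.map_lift, hκ]⟩

theorem kappa_isWH (hD : MUUniv e D) (hA : MUAll D) (hb : IsBPMon p b)
    (hκ : (lawOf b).map κ = hazk p) {w : ℕ} (y : (stdEven 𝒯).S (w : ℤ) ⟶ B) :
    (κ (HRing.of (stdEven 𝒯) B w y)).IsWeightedHomogeneous (wN p) w := by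
  obtain ⟨z, hz, h⟩ := kappa_eq_lift hD hA hb hκ w y
  rw [h]
  exact (homLaw_hazk p).lift hz

theorem kappa_neg (hD : MUUniv e D) (hA : MUAll D) (hb : IsBPMon p b)
    (hκ : (lawOf b).map κ = hazk p) {w : ℤ} (hw : w < 0) (y : (stdEven 𝒯).S w ⟶ B) :
    κ (HRing.of (stdEven 𝒯) B w y) = 0 := by
  obtain ⟨z, hz, h⟩ := kappa_eq_lift hD hA hb hκ w y
  rw [h]
  exact (homLaw_hazk p).lift_neg hw hz

variable {n : ℕ} {x : ℕ → MvPolynomial ℕ (ZMod p)}
  (hx : ∀ j, n ≤ j → (x j).IsWeightedHomogeneous (wN p) (wN p j))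
  (hc : ∀ j, n ≤ j → MvPolynomial.coeff (Finsupp.single j 1) (x j) ≠ 0)

/-- the composite `π_{2*} B → k[v_1, …, v_n]` is homogeneous -/
theorem qpi_kappa_isWH (hD : MUUniv e D) (hA : MUAll D) (hb : IsBPMon p b)
    (hκ : (lawOf b).map κ = hazk p) (w : ℤ) (y : (stdEven 𝒯).S w ⟶ B) :
    (qpi p hx hc (κ (HRing.of (stdEven 𝒯) B w y))).IsWeightedHomogeneous (wV p n) w := by
  rcases lt_or_ge w 0 with hw | hw
  · rw [kappa_neg hD hA hb hκ hw, map_zero]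
    exact MvPolynomial.isWeightedHomogeneous_zero _ _ _
  · obtain ⟨w, rfl⟩ := Int.eq_ofNat_of_zero_le hw
    exact (isWH_int p).1 (qpi_isWH p hx hc (kappa_isWH hD hA hb hκ y))

end bp

end Vale.Agent.P221.H924
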