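import Vale.Agent.P221.H924.Inp
import Vale.Agent.P221.DefsB
import Vale.Agent.P257.H702.HasV

/-!
# P221 (helper924): the form of a family of polynomial generators

* `formS p hx hc : Form p n` and `formS_law`;
* `kappa_polyGen` : polynomial generators are homogeneous with invertible leading coefficient
  modulo `p`.
-/

open CategoryTheory MonoidalCategory MonObj Limits Pretriangulated

set_option linter.unusedSectionVars false

noncomputable section

namespace Vale.Agent.P221.H924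

open Vale.Agent.P251 Vale.Agent.P251.S Vale.Agent.P251.T Vale.Agent.P251.M Vale.Agent.P251.F
  Vale.Agent.P251.I EvenSpheres Vale.Agent.P257.H702 Vale.Agent.P257.H80 Vale.Agent.P251.Q
  Vale.Agent.P251.St Vale.Agent.P257.St

section form

variable (p : ℕ) [hp : Fact p.Prime] {n : ℕ}

theorem natCast_wN (i : ℕ) : ((wN p i : ℕ) : ℤ) = (p : ℤ) ^ (i + 1) - 1 := by
  unfold wN
  have h : 1 ≤ p ^ (i + 1) := Nat.one_le_pow _ _ hp.out.pos
  push_cast [Nat.cast_sub h]
  rfl

theorem weight_int (d : Fin n →₀ ℕ) : Finsupp.weight (wV p n) d =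
    ((Finsupp.weight (fun a : Fin n => wN p a) d : ℕ) : ℤ) := by
  rw [Finsupp.weight_apply, Finsupp.weight_apply, Finsupp.sum, Finsupp.sum, Nat.cast_sum]
  refine Finset.sum_congr rfl fun a _ => ?_
  rw [nsmul_eq_mul, smul_eq_mul, Nat.cast_mul, natCast_wN]
  rfl

theorem isWH_int {f : MvPolynomial (Fin n) (ZMod p)} {m : ℕ} :
    f.IsWeightedHomogeneous (fun a : Fin n => wN p a) m ↔
      f.IsWeightedHomogeneous (wV p n) (m : ℤ) := by
  constructor
  · intro h d hd
    rw [weight_int, h hd]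
  · intro h d hd
    have h1 := h hd
    rw [weight_int] at h1
    exact Nat.cast_injective h1

theorem isWH_neg {f : MvPolynomial (Fin n) (ZMod p)} {m : ℤ} (hm : m < 0)
    (h : f.IsWeightedHomogeneous (wV p n) m) : f = 0 := by
  ext d
  rw [MvPolynomial.coeff_zero]
  by_contra hd
  have h1 := h hd
  rw [weight_int] at h1
  omega

variable {x : ℕ → MvPolynomial ℕ (ZMod p)}
  (hx : ∀ j, n ≤ j → (x j).IsWeightedHomogeneous (wN p) (wN p j))
  (hc : ∀ j, n ≤ j → MvPolynomial.coeff (Finsupp.single j 1) (x j) ≠ 0)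

/-- the form of a family of generators -/
def formS : Form p n where
  pol m := yF p (lawS p hx hc) m
  hom m := by
    have h := (isWH_int p).1 ((homLaw_lawS p hx hc).yF p m)
    rwa [Nat.cast_add, Nat.cast_one] at h
  std a := by
    rw [yF_pow_sub hp.out _ (Nat.succ_ne_zero a)]
    exact vv_lawS p hx hc a

theorem formS_law : (formS p hx hc).law = lawS p hx hc :=
  (eq_lawOfY cast_p_eq_zero (lawS p hx hc)).symm

end form

section gen

variable {T : SHCat} {S : Susp T} {p : ℕ} [hp : Fact p.Prime] {P : RingSp T}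
  {o : St.Oriented S P} {κ : HRing (stdEven T.C) P.obj →+* MvPolynomial ℕ (ZMod p)}
  {Φ : MvPolynomial ℕ ℤ →+* HRing (stdEven T.C) P.obj}

theorem pLoc_poly (p : ℕ) [hp : Fact p.Prime] : PLoc p (MvPolynomial ℕ (ZMod p)) := by
  intro m hm
  have h1 : IsUnit ((m : ℕ) : ZMod p) := by
    rw [isUnit_iff_ne_zero]
    exact fun h => hm ((ZMod.natCast_eq_zero_iff _ _).1 h)
  have h2 := h1.map (MvPolynomial.C (σ := ℕ) (R := ZMod p))
  rwa [map_natCast] at h2

theorem kappa_comp (hΦ : Vale.Agent.P257.H702.lawS o = (haz p).map Φ)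
    (hκ : (Vale.Agent.P257.H702.lawS o).map κ = hazk p) : κ.comp Φ = redP p := by
  refine haz_map_injective p (pLoc_poly p) ?_
  rw [← Law.map_map, ← hΦ, hκ]
  rfl

variable {φ : P257.St.GHom S p P} {x : ∀ j : ℕ, SHCat.Hom (S.obj (Cn (p ^ j - 1))) P.obj}

theorem redP_ne {f : MvPolynomial ℕ ℤ} {d : ℕ →₀ ℕ} (h : ¬ (p : ℤ) ∣ MvPolynomial.coeff d f) :
    MvPolynomial.coeff d (redP p f) ≠ 0 := by
  rw [redP, MvPolynomial.coeff_map, eq_intCast]
  exact fun h1 => h ((ZMod.intCast_zmod_eq_zero_iff_dvd _ _).1 h1)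

/-- **Polynomial generators modulo `p`** -/
theorem kappa_polyGen
    (hφ : ∀ (n : ℕ) (y : P257.St.VPoly p n),
      Φ y = HRing.of (stdEven T.C) P.obj n ((isoE S n).inv ≫ φ n y))
    (h : κ.comp Φ = redP p) {j : ℕ} (hj : P221.St.IsPolyGen φ (j + 1) (x (j + 1))) :
    (κ (xc (xE x) j)).IsWeightedHomogeneous (wN p) (wN p j) ∧
      MvPolynomial.coeff (Finsupp.single j 1) (κ (xc (xE x) j)) ≠ 0 := by
  obtain ⟨m, w, hm, hw, e⟩ := hj
  have h1 : (m : HRing (stdEven T.C) P.obj) * xc (xE x) j = Φ w := by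
    have e' : zmul m (x (j + 1)) = φ (p ^ (j + 1) - 1) w := e
    rw [hφ, ← e', ← zsmul_eq_mul]
    have h2 : (isoE S (p ^ (j + 1) - 1)).inv ≫ zmul m (x (j + 1)) = m • xE x j := by
      rw [zmul, Preadditive.comp_zsmul]
      rfl
    rw [h2]
    exact (map_zsmul (DirectSum.of ((stdEven T.C).Gr P.obj) _) _ _).symm
  have h2 : MvPolynomial.C (m : ZMod p) * κ (xc (xE x) j) = redP p w := by
    rw [← h, RingHom.comp_apply, ← h1, map_mul, map_intCast, map_intCast]
  have hm0 : (m : ZMod p) ≠ 0 := fun h0 => hm ((ZMod.intCast_zmod_eq_zero_iff_dvd _ _).1 h0)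
  have h3 : κ (xc (xE x) j) = MvPolynomial.C ((m : ZMod p)⁻¹) * redP p w := by
    rw [← h2, ← _root_.mul_assoc, ← map_mul, inv_mul_cancel₀ hm0, map_one, _root_.one_mul]
  rw [h3]
  constructor
  · have h4 : (redP p (w : MvPolynomial ℕ ℤ)).IsWeightedHomogeneous (wN p) (wN p j) := by
      intro d hd
      rw [redP, MvPolynomial.coeff_map] at hd
      exact w.2 (fun h0 => hd (by rw [h0, map_zero]))
    have h5 := (MvPolynomial.isWeightedHomogeneous_C (wN p) ((m : ZMod p)⁻¹)).mul h4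
    rwa [zero_add] at h5
  · rw [MvPolynomial.coeff_C_mul]
    exact mul_ne_zero (inv_ne_zero hm0) (redP_ne hw)

end gen

end Vale.Agent.P221.H924
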