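import Vale.Agent.P221.H924.Deg

/-!
# P221 (helper924): the submodule generated by the `x_j`

* `inGen_zero`, `inGen_add`, `inGen_sum`, `inGen_single`, `inGen_whisker`;
* `inGen_of_mem` : the elements of the ideal `(x_j)` are in the submodule.
-/

open CategoryTheory MonoidalCategory MonObj Limits Pretriangulated

set_option linter.unusedSectionVars false

noncomputable section

namespace Vale.Agent.P221.H924

open Vale.Agent.P251 Vale.Agent.P251.S Vale.Agent.P251.T Vale.Agent.P251.M Vale.Agent.P251.F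
  Vale.Agent.P251.I EvenSpheres Vale.Agent.P257.H702 Vale.Agent.P257.H80 Vale.Agent.P251.Q
  Vale.Agent.P251.St Vale.Agent.P257.St

variable {T : SHCat} {S : Susp T} {p : ℕ} [hp : Fact p.Prime] {n : ℕ} {P : RingSp T}
  {x : ∀ j : ℕ, SHCat.Hom (S.obj (Cn (p ^ j - 1))) P.obj}

/-- multiplication by `x j` -/
def mx (x : ∀ j : ℕ, SHCat.Hom (S.obj (Cn (p ^ j - 1))) P.obj) (j : ℕ) :
    P.obj ⊗ S.obj (Cn (p ^ j - 1)) ⟶ P.obj := P.obj ◁ x j ≫ μ[P.obj]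

theorem mx_eq (j : ℕ) : P221.St.mulBy (x j) = mx x j := by
  rw [mx, ← id_tensorHom]

/-- unfolding -/
theorem inGen_iff (Z : T.C) {k : ℤ} (a : (𝟙_ T.C)⟦k⟧ ⟶ P.obj ⊗ Z) :
    P221.St.InGen n x Z a ↔ ∃ (N : ℕ) (b : ∀ j : ℕ, (𝟙_ T.C)⟦k⟧ ⟶
      (P.obj ⊗ S.obj (Cn (p ^ j - 1))) ⊗ Z), a = ∑ j ∈ Finset.Ioc n N, b j ≫ (mx x j ▷ Z) := by
  constructor
  · rintro ⟨N, b, hb⟩
    refine ⟨N, b, hb.trans (Finset.sum_congr rfl fun j _ => ?_)⟩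
    rw [← mx_eq]
  · rintro ⟨N, b, hb⟩
    refine ⟨N, b, hb.trans (Finset.sum_congr rfl fun j _ => ?_)⟩
    rw [← mx_eq]

theorem inGen_zero (Z : T.C) (k : ℤ) : P221.St.InGen n x Z (0 : (𝟙_ T.C)⟦k⟧ ⟶ P.obj ⊗ Z) := by
  rw [inGen_iff]
  exact ⟨0, fun _ => 0, by simp⟩

theorem ioc_extend {Z : T.C} {k : ℤ} {N N' : ℕ} (h : N ≤ N') (b : ∀ j : ℕ, (𝟙_ T.C)⟦k⟧ ⟶
      (P.obj ⊗ S.obj (Cn (p ^ j - 1))) ⊗ Z) :
    ∑ j ∈ Finset.Ioc n N, b j ≫ (mx x j ▷ Z) =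
      ∑ j ∈ Finset.Ioc n N', (if j ≤ N then b j else 0) ≫ (mx x j ▷ Z) := by
  have h1 : ∑ j ∈ Finset.Ioc n N, b j ≫ (mx x j ▷ Z) =
      ∑ j ∈ Finset.Ioc n N, (if j ≤ N then b j else 0) ≫ (mx x j ▷ Z) := by
    refine Finset.sum_congr rfl fun j hj => ?_
    rw [Finset.mem_Ioc] at hj
    rw [if_pos hj.2]
  rw [h1]
  refine Finset.sum_subset (Finset.Ioc_subset_Ioc_right h) fun j hj hj' => ?_
  rw [Finset.mem_Ioc] at hj hj'
  rw [if_neg (fun h => hj' ⟨hj.1, h⟩), zero_comp]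

theorem inGen_add {Z : T.C} {k : ℤ} {a a' : (𝟙_ T.C)⟦k⟧ ⟶ P.obj ⊗ Z}
    (h : P221.St.InGen n x Z a) (h' : P221.St.InGen n x Z a') :
    P221.St.InGen n x Z (a + a' : (𝟙_ T.C)⟦k⟧ ⟶ P.obj ⊗ Z) := by
  rw [inGen_iff] at *
  obtain ⟨N, b, rfl⟩ := h
  obtain ⟨N', b', rfl⟩ := h'
  refine ⟨max N N', fun j => (if j ≤ N then b j else 0) + (if j ≤ N' then b' j else 0), ?_⟩
  rw [ioc_extend (le_max_left N N') b, ioc_extend (le_max_right N N') b', ← Finset.sum_add_distrib]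
  refine Finset.sum_congr rfl fun j _ => ?_
  rw [Preadditive.add_comp]

theorem inGen_sum {Z : T.C} {k : ℤ} {κ : Type*} (s : Finset κ)
    (a : κ → ((𝟙_ T.C)⟦k⟧ ⟶ P.obj ⊗ Z)) (h : ∀ i ∈ s, P221.St.InGen n x Z (a i)) :
    P221.St.InGen n x Z (∑ i ∈ s, a i : (𝟙_ T.C)⟦k⟧ ⟶ P.obj ⊗ Z) := by
  classical
  induction s using Finset.induction_on with
  | empty =>
    rw [Finset.sum_empty]
    exact inGen_zero Z k
  | insert i s hi ih =>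
    rw [Finset.sum_insert hi]
    exact inGen_add (h i (Finset.mem_insert_self i s))
      (ih fun j hj => h j (Finset.mem_insert_of_mem hj))

theorem inGen_single {Z : T.C} {k : ℤ} {j : ℕ} (hj : n < j)
    (b : (𝟙_ T.C)⟦k⟧ ⟶ (P.obj ⊗ S.obj (Cn (p ^ j - 1))) ⊗ Z) :
    P221.St.InGen n x Z (b ≫ (mx x j ▷ Z)) := by
  classical
  rw [inGen_iff]
  refine ⟨j, fun i => if hi : i = j then b ≫ eqToHom (by rw [hi]) else 0, ?_⟩
  rw [Finset.sum_eq_single j]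
  · dsimp only
    rw [dif_pos rfl, eqToHom_refl, Category.comp_id]
  · intro i _ hi
    dsimp only
    rw [dif_neg hi, zero_comp]
  · intro hne
    exact absurd (Finset.mem_Ioc.2 ⟨hj, le_rfl⟩) hne

theorem inGen_whisker {Z Z' : T.C} {k : ℤ} {a : (𝟙_ T.C)⟦k⟧ ⟶ P.obj ⊗ Z} (g : Z ⟶ Z')
    (h : P221.St.InGen n x Z a) : P221.St.InGen n x Z' (a ≫ (P.obj ◁ g)) := by
  rw [inGen_iff] at *
  obtain ⟨N, b, rfl⟩ := h
  refine ⟨N, fun j => b j ≫ (_ ◁ g), ?_⟩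
  rw [Preadditive.sum_comp]
  refine Finset.sum_congr rfl fun j _ => ?_
  rw [Category.assoc, Category.assoc, whisker_exchange]

/-- maps which kill the `x j` kill the submodule -/
theorem comp_eq_zero_of_inGen {C : T.C} (MC : ModStr P.obj C) {q : P.obj ⟶ C}
    (hq : μ[P.obj] ≫ q = (P.obj ◁ q) ≫ MC.act) (hx : ∀ j, n < j → x j ≫ q = 0) {Z : T.C} {k : ℤ}
    {a : (𝟙_ T.C)⟦k⟧ ⟶ P.obj ⊗ Z} (h : P221.St.InGen n x Z a) : a ≫ (q ▷ Z) = 0 := by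
  rw [inGen_iff] at h
  obtain ⟨N, b, rfl⟩ := h
  rw [Preadditive.sum_comp]
  refine Finset.sum_eq_zero fun j hj => ?_
  rw [Finset.mem_Ioc] at hj
  have h1 : mx x j ≫ q = 0 := by
    rw [mx, Category.assoc, hq, ← whiskerLeft_comp_assoc, hx j hj.1,
      MonoidalPreadditive.whiskerLeft_zero, zero_comp]
  rw [Category.assoc, ← comp_whiskerRight, h1, MonoidalPreadditive.zero_whiskerRight, comp_zero]

/-- products with `x_j` -/
theorem gmul_xE {w m : ℤ} {j : ℕ} (h : m + ((p ^ (j + 1) - 1 : ℕ) : ℤ) = w)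
    (a : (stdEven T.C).S m ⟶ P.obj) : gmul h a (xE x j) =
      ((stdEven T.C).mu m _ w h).inv ≫ (a ▷ _) ≫ (P.obj ◁ (isoE S (p ^ (j + 1) - 1)).inv) ≫
        mx x (j + 1) := by
  rw [gmul, EvenSpheres.ext, MonoidalCategory.tensorHom_def, xE, mx, whiskerLeft_comp]
  simp only [Category.assoc]

/-- **elements of the ideal** -/
theorem inGen_of_mem {v : HRing (stdEven T.C) P.obj}
    (hv : v ∈ Ideal.span (xc (xE x) '' {j | n ≤ j})) (w : ℤ) :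
    P221.St.InGen n x T.one ((stdSph w).inv ≫ (v w : (stdEven T.C).S w ⟶ P.obj) ≫
      (ρ_ P.obj).inv) := by
  obtain ⟨t, ht, c, rfl⟩ := (Submodule.mem_span_image_iff_exists_fun _).1 hv
  have h1 : ((∑ i : t, c i • xc (xE x) i : HRing (stdEven T.C) P.obj) w :
      (stdEven T.C).S w ⟶ P.obj) = ∑ i : t, gmul (sub_add_cancel w ((p ^ ((i : ℕ) + 1) - 1 : ℕ) : ℤ))
        (c i (w - ((p ^ ((i : ℕ) + 1) - 1 : ℕ) : ℤ))) (xE x i) := by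
    refine (DFinsupp.finsetSum_apply _ _ _).trans (Finset.sum_congr rfl fun i _ => ?_)
    exact mul_of_apply (c i) (sub_add_cancel w _) (xE x i)
  rw [h1, Preadditive.sum_comp, Preadditive.comp_sum]
  refine inGen_sum _ _ fun i _ => ?_
  rw [gmul_xE]
  have h2 : (stdSph w).inv ≫ (((stdEven T.C).mu _ _ w (sub_add_cancel w
      ((p ^ ((i : ℕ) + 1) - 1 : ℕ) : ℤ))).inv ≫ ((c i (w - ((p ^ ((i : ℕ) + 1) - 1 : ℕ) : ℤ)) :
        (stdEven T.C).S _ ⟶ P.obj) ▷ _) ≫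
          (P.obj ◁ (isoE S (p ^ ((i : ℕ) + 1) - 1)).inv) ≫ mx x (i + 1)) ≫ (ρ_ P.obj).inv =
      ((stdSph w).inv ≫ ((stdEven T.C).mu _ _ w (sub_add_cancel w
        ((p ^ ((i : ℕ) + 1) - 1 : ℕ) : ℤ))).inv ≫ ((c i (w - ((p ^ ((i : ℕ) + 1) - 1 : ℕ) : ℤ)) :
        (stdEven T.C).S _ ⟶ P.obj) ▷ _) ≫
          (P.obj ◁ (isoE S (p ^ ((i : ℕ) + 1) - 1)).inv) ≫ (ρ_ _).inv) ≫ (mx x (i + 1) ▷ T.one) := by
    simp only [Category.assoc]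
    have h3 : mx x ((i : ℕ) + 1) ≫ (ρ_ P.obj).inv = (ρ_ _).inv ≫ (mx x ((i : ℕ) + 1) ▷ T.one) :=
      rightUnitor_inv_naturality _
    rw [h3]
  rw [h2]
  exact inGen_single (Nat.lt_succ_iff.2 (ht i.2)) _

end Vale.Agent.P221.H924
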