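import Vale.Agent.P221.H924.Quot
import Vale.Agent.P221.St.Statement
import Vale.Agent.P257.H702.BPRing
import Vale.Agent.P251.M.QTrans

/-!
# P221 (helper924): quotients of `BP` in the sense of the statement layer
-/

open CategoryTheory MonoidalCategory MonObj Limits Pretriangulated

set_option linter.unusedSectionVars false

noncomputable section

namespace Vale.Agent.P221.H924

open Vale.Agent.P251 Vale.Agent.P251.S Vale.Agent.P251.T Vale.Agent.P251.M Vale.Agent.P251.F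
  Vale.Agent.P251.I EvenSpheres Vale.Agent.P257.H702 Vale.Agent.P257.H80 Vale.Agent.P251.Q
  Vale.Agent.P251.St Vale.Agent.P257.St

variable {T : SHCat} {S : Susp T} {p : ℕ} [hp : Fact p.Prime] {n : ℕ} {P : RingSp T}

/-- the elements `x_{j+1}` as maps from the standard even spheres -/
def xE (x : ∀ j : ℕ, SHCat.Hom (S.obj (Cn (p ^ j - 1))) P.obj) (j : ℕ) :
    (stdEven T.C).S ((p ^ (j + 1) - 1 : ℕ) : ℤ) ⟶ P.obj :=
  (isoE S (p ^ (j + 1) - 1)).inv ≫ x (j + 1)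

variable {x : ∀ j : ℕ, SHCat.Hom (S.obj (Cn (p ^ j - 1))) P.obj}

/-- elements of the submodule generated by the `x_j` are in the ideal -/
theorem of_mem_of_inGen {w : ℤ} (u : (𝟙_ T.C)⟦2 * w⟧ ⟶ P.obj)
    (h : P221.St.InGen n x T.one (u ≫ (ρ_ P.obj).inv)) :
    HRing.of (stdEven T.C) P.obj w ((stdSph w).hom ≫ u) ∈
      Ideal.span (xc (xE x) '' {j | n ≤ j}) := by
  obtain ⟨N, b, hb⟩ := h
  have h1 : (stdSph w).hom ≫ u = ∑ j ∈ Finset.Ioc n N, (stdSph w).hom ≫ (b j ≫ (ρ_ _).hom) ≫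
      P.obj ◁ x j ≫ μ[P.obj] := by
    have h2 : u = (u ≫ (ρ_ P.obj).inv) ≫ (ρ_ P.obj).hom := by simp
    rw [h2, hb, Preadditive.sum_comp, Preadditive.comp_sum]
    refine Finset.sum_congr rfl fun j _ => ?_
    have h3 : P221.St.mulBy (x j) = P.obj ◁ x j ≫ μ[P.obj] := by
      rw [← id_tensorHom]
    change (stdSph w).hom ≫ (b j ≫ (P221.St.mulBy (x j) ▷ 𝟙_ T.C)) ≫ (ρ_ P.obj).hom = _
    rw [h3, Category.assoc, rightUnitor_naturality, Category.assoc]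
  rw [h1, of_sum]
  refine Ideal.sum_mem _ fun j hj => ?_
  rw [Finset.mem_Ioc] at hj
  obtain ⟨j, rfl⟩ : ∃ i, j = i + 1 := ⟨j - 1, by omega⟩
  have h4 : (stdSph w).hom ≫ (b (j + 1) ≫ (ρ_ _).hom) ≫ P.obj ◁ x (j + 1) ≫ μ[P.obj] =
      ((stdSph w).hom ≫ b (j + 1) ≫ (ρ_ _).hom ≫ P.obj ◁ (isoE S (p ^ (j + 1) - 1)).hom) ≫
        P.obj ◁ xE x j ≫ μ[P.obj] := by
    rw [xE]
    simp
  rw [h4]
  obtain ⟨b', hb'⟩ := exists_of_mul (E := stdEven T.C) (K := P.obj) (xE x j)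
    ((stdSph w).hom ≫ b (j + 1) ≫ (ρ_ _).hom ≫ P.obj ◁ (isoE S (p ^ (j + 1) - 1)).hom)
  rw [hb', ← of_mul_of (by ring)]
  refine Ideal.mul_mem_left _ _ (Ideal.subset_span ⟨j, ?_, rfl⟩)
  exact Nat.lt_succ_iff.1 hj.1

/-- a homotopy module of the statement layer is a module -/
def modOf {C : T.C} {a : SHCat.Hom (SHCat.ten P.obj C) C} (h : P221.St.IsAct a) :
    ModStr P.obj C where
  act := a
  one_act := by
    have h1 : (λ_ C).inv ≫ (η[P.obj] ▷ C) ≫ a = 𝟙 C := h.1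
    rw [← cancel_epi (λ_ C).inv, h1, Iso.inv_hom_id]
  mul_act := h.2

section quot

variable {C : T.C} {a : SHCat.Hom (SHCat.ten P.obj C) C} {q : SHCat.Hom P.obj C}

/-- the `x_j` die in the quotient -/
theorem xE_comp_q (h : P221.St.IsQuotient n x a q) {j : ℕ} (hj : n ≤ j) :
    xE x j ≫ q = 0 := by
  classical
  have h1 : (stdSph ((p ^ (j + 1) - 1 : ℕ) : ℤ)).inv ≫ xE x j ≫ q = 0 := by
    rw [← Category.assoc]
    refine (h.ker _ _).2 ⟨j + 1, fun i => if hi : i = j + 1 then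
      (stdSph ((p ^ (j + 1) - 1 : ℕ) : ℤ)).inv ≫ (isoE S (p ^ (j + 1) - 1)).inv ≫
        (λ_ _).inv ≫ (η[P.obj] ▷ _) ≫ (ρ_ _).inv ≫ eqToHom (by rw [hi]) else 0, ?_⟩
    rw [Finset.sum_eq_single (j + 1)]
    · dsimp only
      rw [dif_pos rfl, eqToHom_refl, Category.comp_id]
      have h3 : P221.St.mulBy (x (j + 1)) = P.obj ◁ x (j + 1) ≫ μ[P.obj] := by
        rw [← id_tensorHom]
      change ((stdSph _).inv ≫ xE x j) ≫ (ρ_ P.obj).inv = ((stdSph _).inv ≫ _) ≫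
        (P221.St.mulBy (x (j + 1)) ▷ 𝟙_ T.C)
      rw [h3, xE]
      simp only [Category.assoc]
      rw [← rightUnitor_inv_naturality, Category.assoc, ← whisker_exchange_assoc,
        MonObj.one_mul_assoc, leftUnitor_naturality_assoc, Iso.inv_hom_id_assoc]
    · intro i _ hi
      dsimp only
      rw [dif_neg hi]
      exact zero_comp
    · intro hne
      exact absurd (Finset.mem_Ioc.2 ⟨by omega, le_rfl⟩) hne
  rwa [← cancel_epi (stdSph ((p ^ (j + 1) - 1 : ℕ) : ℤ)).inv, comp_zero]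

/-- divisibility of odd homotopy passes to even suspensions -/
theorem div_tensor {X A : T.C} (hX : ∀ (k : ℤ) (a : (𝟙_ T.C)⟦2 * k + 1⟧ ⟶ X), ∃ b, a = (p : ℤ) • b)
    {l : ℤ} (e : A ≅ (𝟙_ T.C)⟦2 * l⟧) (k : ℤ) (b : (𝟙_ T.C)⟦2 * k + 1⟧ ⟶ X ⊗ A) :
    ∃ c, b = (p : ℤ) • c := by
  have e1 : X ⊗ A ≅ X⟦2 * l⟧ := whiskerLeftIso X e ≪≫ tensorSph (2 * l) X
  refine div_of_shift (X' := (𝟙_ T.C)⟦2 * (k - l) + 1⟧) (Y' := X) (-(2 * l))
    ((shiftFunctorAdd' T.C (2 * k + 1) (-(2 * l)) (2 * (k - l) + 1) (by ring)).app _)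
    ((shiftFunctor T.C (-(2 * l))).mapIso e1 ≪≫
      (shiftFunctorCompIsoId T.C (2 * l) (-(2 * l)) (by ring)).app X) (fun g => hX _ g) b

/-- **quotients of the statement layer** -/
theorem isQ_of_isQuotient
    (hdiv : ∀ (k : ℤ) (a : (𝟙_ T.C)⟦2 * k + 1⟧ ⟶ P.obj), ∃ b, a = (p : ℤ) • b)
    (htf : ∀ (k : ℤ) (a : (𝟙_ T.C)⟦2 * k + 1⟧ ⟶ P.obj), (p : ℤ) • a = 0 → a = 0)
    (h : P221.St.IsQuotient n x a q) : IsQ p n (modOf h.act) q (xE x) where
  lin := h.map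
  surjE w y := by
    obtain ⟨u, hu⟩ := h.surj (2 * w) ((stdSph w).inv ≫ y)
    exact ⟨(stdSph w).hom ≫ u, by
      rw [Category.assoc]
      refine (congrArg ((stdSph w).hom ≫ ·) hu).trans ?_
      exact Iso.hom_inv_id_assoc _ _⟩
  zero j hj := xE_comp_q h hj
  kerE w u hu := by
    have h1 := of_mem_of_inGen (w := w) ((stdSph w).inv ≫ u) ((h.ker _ _).1 (by
      change ((stdSph w).inv ≫ u) ≫ q = 0
      rw [Category.assoc, hu, comp_zero]))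
    rwa [Iso.hom_inv_id_assoc] at h1
  oddDiv k a := by
    obtain ⟨u, rfl⟩ := h.surj _ a
    obtain ⟨b, rfl⟩ := hdiv k u
    exact ⟨b ≫ q, Preadditive.zsmul_comp _ _ _⟩
  oddTf k y hy := by
    obtain ⟨u, rfl⟩ := h.surj _ y
    have h1 : ((p : ℤ) • u) ≫ q = 0 := by
      rw [Preadditive.zsmul_comp]
      exact hy
    obtain ⟨N, b, hb⟩ := (h.ker _ _).1 h1
    have h2 : ∀ j, ∃ c, b j = (p : ℤ) • c := by
      intro j
      obtain ⟨c, hc⟩ := div_tensor hdiv ((isoE S (p ^ j - 1)) ≪≫ stdSph _) k (b j ≫ (ρ_ _).hom)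
      refine ⟨c ≫ (ρ_ _).inv, ?_⟩
      rw [← Preadditive.zsmul_comp, ← hc, Category.assoc, Iso.hom_inv_id, Category.comp_id]
    choose c hc using h2
    refine (h.ker _ _).2 ⟨N, c, ?_⟩
    rw [← sub_eq_zero]
    have h3 : (p : ℤ) • ((u ≫ (ρ_ P.obj).inv -
        ∑ j ∈ Finset.Ioc n N, c j ≫ (P221.St.mulBy (x j) ▷ 𝟙_ T.C)) ≫ (ρ_ P.obj).hom) = 0 := by
      rw [← Preadditive.zsmul_comp, smul_sub, Finset.smul_sum, ← Preadditive.zsmul_comp]
      have h4 : ((p : ℤ) • u) ≫ (ρ_ P.obj).inv = ∑ j ∈ Finset.Ioc n N, (p : ℤ) • c j ≫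
          (P221.St.mulBy (x j) ▷ 𝟙_ T.C) := by
        refine hb.trans (Finset.sum_congr rfl fun j _ => ?_)
        rw [← Preadditive.zsmul_comp, ← hc]
      rw [h4, sub_self, zero_comp]
    have h5 := htf k _ h3
    rw [← cancel_mono (ρ_ P.obj).hom, zero_comp]
    exact h5

end quot

end Vale.Agent.P221.H924
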