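import Vale.Agent.P221.H924.Alg

/-!
# P221 (helper924): `p` is a non zero divisor modulo the `x j`

`A` is a ring without `p`-torsion, `κ : A → k[v_1, v_2, …]` a surjection with kernel `(p)`,
`x j ∈ A` (`j ≥ n`) elements with `κ (x j)` homogeneous of weight `p ^ (j + 1) - 1` and non-zero
coefficient at `v_{j+1}`. Then `p` is a non zero divisor modulo the ideal `(x j : j ≥ n)`.
-/

namespace Vale.Agent.P221.H924

open Vale.Agent.P251.F Vale.Agent.P257.H80 MvPolynomial

set_option linter.unusedSectionVars false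

section reg

variable (p : ℕ) [hp : Fact p.Prime] {n : ℕ} {x : ℕ → MvPolynomial ℕ (ZMod p)}
  (hx : ∀ j, n ≤ j → (x j).IsWeightedHomogeneous (wN p) (wN p j))
  (hc : ∀ j, n ≤ j → coeff (Finsupp.single j 1) (x j) ≠ 0)

theorem reg_X {R : Type*} [CommRing R] {s : Set ℕ} {N : ℕ} (hN : N ∉ s) {a : MvPolynomial ℕ R}
    (h : a * X N ∈ Ideal.span (X '' s : Set (MvPolynomial ℕ R))) :
    a ∈ Ideal.span (X '' s : Set (MvPolynomial ℕ R)) := by
  rw [mem_ideal_span_X_image] at h ⊢
  intro m hm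
  obtain ⟨i, hi, h1⟩ := h (m + Finsupp.single N 1) (by
    rw [mem_support_iff, coeff_mul_X]
    exact mem_support_iff.1 hm)
  refine ⟨i, hi, ?_⟩
  have h2 : N ≠ i := fun h => hN (h ▸ hi)
  rwa [Finsupp.add_apply, Finsupp.single_apply, if_neg h2, add_zero] at h1

theorem mem_span_genE {s : Set ℕ} (hs : ∀ j ∈ s, n ≤ j) (a : MvPolynomial ℕ (ZMod p)) :
    genE p hx hc a ∈ Ideal.span (x '' s) ↔
      a ∈ Ideal.span (X '' s : Set (MvPolynomial ℕ (ZMod p))) := by
  have h1 : Ideal.span (x '' s) =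
      (Ideal.span (X '' s : Set (MvPolynomial ℕ (ZMod p)))).map
        (genE p hx hc : MvPolynomial ℕ (ZMod p) →+* MvPolynomial ℕ (ZMod p)) := by
    rw [Ideal.map_span, Set.image_image]
    congr 1
    refine Set.image_congr fun j hj => ?_
    exact (genE_X_ge p hx hc (hs j hj)).symm
  rw [h1]
  constructor
  · intro h
    have h2 := Ideal.mem_map_of_mem
      ((genE p hx hc).symm : MvPolynomial ℕ (ZMod p) →+* MvPolynomial ℕ (ZMod p)) h
    rw [Ideal.map_map] at h2
    have h3 : ((genE p hx hc).symm : MvPolynomial ℕ (ZMod p) →+* MvPolynomial ℕ (ZMod p)).comp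
        (genE p hx hc : MvPolynomial ℕ (ZMod p) →+* MvPolynomial ℕ (ZMod p)) = RingHom.id _ :=
      RingHom.ext fun f => (genE p hx hc).symm_apply_apply f
    rw [h3, Ideal.map_id] at h2
    have h4 : (genE p hx hc).symm (genE p hx hc a) = a := (genE p hx hc).symm_apply_apply a
    rwa [← h4]
  · intro h
    exact Ideal.mem_map_of_mem
      (genE p hx hc : MvPolynomial ℕ (ZMod p) →+* MvPolynomial ℕ (ZMod p)) h

include hx hc in
/-- **regularity** of the `x j` in the polynomial ring -/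
theorem reg_x {s : Set ℕ} (hs : ∀ j ∈ s, n ≤ j) {N : ℕ} (hN : N ∉ s) (hnN : n ≤ N)
    {a : MvPolynomial ℕ (ZMod p)} (h : a * x N ∈ Ideal.span (x '' s)) :
    a ∈ Ideal.span (x '' s) := by
  obtain ⟨a, rfl⟩ := (genE p hx hc).surjective a
  rw [← genE_X_ge p hx hc hnN, ← map_mul, mem_span_genE p hx hc hs] at h
  rw [mem_span_genE p hx hc hs]
  exact reg_X hN h

end reg

section kos

variable (p : ℕ) [hp : Fact p.Prime] {A : Type*} [CommRing A]
  {κ : A →+* MvPolynomial ℕ (ZMod p)} (hκs : Function.Surjective κ)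
  (hker : ∀ y, κ y = 0 → ∃ y', y = (p : A) * y') (htf : ∀ y : A, (p : A) * y = 0 → y = 0)
  {n : ℕ} {x : ℕ → A}
  (hx : ∀ j, n ≤ j → (κ (x j)).IsWeightedHomogeneous (wN p) (wN p j))
  (hc : ∀ j, n ≤ j → coeff (Finsupp.single j 1) (κ (x j)) ≠ 0)

include hκs hker in
/-- membership modulo `p` -/
theorem mem_of_kappa_mem {s : Set ℕ} {a : A} (h : κ a ∈ Ideal.span ((fun j => κ (x j)) '' s)) :
    ∃ w ∈ Ideal.span (x '' s), ∃ a', a = w + (p : A) * a' := by
  have h1 : Ideal.span ((fun j => κ (x j)) '' s) = (Ideal.span (x '' s)).map κ := by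
    rw [Ideal.map_span, Set.image_image]
  rw [h1, Ideal.mem_map_iff_of_surjective κ hκs] at h
  obtain ⟨w, hw, h2⟩ := h
  obtain ⟨a', h3⟩ := hker (a - w) (by rw [map_sub, h2, sub_self])
  exact ⟨w, hw, a', by rw [← h3]; ring⟩

include hκs hker htf hx hc in
theorem tf_fin (N : ℕ) : ∀ y : A, (p : A) * y ∈ Ideal.span (x '' {j | n ≤ j ∧ j < N}) →
    y ∈ Ideal.span (x '' {j | n ≤ j ∧ j < N}) := by
  induction N with
  | zero =>
    intro y hy
    have h1 : {j : ℕ | n ≤ j ∧ j < 0} = ∅ := by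
      ext j
      simp
    rw [h1, Set.image_empty, Ideal.span_empty, Ideal.mem_bot] at hy ⊢
    exact htf y hy
  | succ N ih =>
    intro y hy
    by_cases hnN : n ≤ N
    · have h1 : {j : ℕ | n ≤ j ∧ j < N + 1} = insert N {j : ℕ | n ≤ j ∧ j < N} := by
        ext j
        simp only [Set.mem_ofPred_eq, Set.mem_insert_iff]
        omega
      rw [h1, Set.image_insert_eq, Ideal.mem_span_insert'] at hy ⊢
      obtain ⟨a, ha⟩ := hy
      -- modulo `p`
      have h2 : κ a ∈ Ideal.span ((fun j => κ (x j)) '' {j : ℕ | n ≤ j ∧ j < N}) := by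
        refine reg_x p hx hc (x := fun j => κ (x j)) (fun j hj => hj.1) (N := N)
          (fun h => absurd h.2 (lt_irrefl N)) hnN ?_
        have h3 := Ideal.mem_map_of_mem κ ha
        rw [map_add, map_mul, map_natCast, natCast_zero, zero_mul, zero_add, Ideal.map_span,
          Set.image_image, map_mul] at h3
        exact h3
      obtain ⟨w, hw, a', rfl⟩ := mem_of_kappa_mem p hκs hker h2
      refine ⟨a', ih _ ?_⟩
      have h4 : (p : A) * (y + a' * x N) =
          ((p : A) * y + (w + (p : A) * a') * x N) - x N * w := by ring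
      rw [h4]
      exact Ideal.sub_mem _ ha (Ideal.mul_mem_left _ _ hw)
    · have h1 : {j : ℕ | n ≤ j ∧ j < N + 1} = {j : ℕ | n ≤ j ∧ j < N} := by
        ext j
        simp only [Set.mem_ofPred_eq]
        omega
      rw [h1] at hy ⊢
      exact ih y hy

/-- membership in the ideal of all `x j` is membership for finitely many -/
theorem mem_span_iff_fin {A : Type*} [CommRing A] {n : ℕ} {x : ℕ → A} (y : A) :
    y ∈ Ideal.span (x '' {j | n ≤ j}) ↔ ∃ N, y ∈ Ideal.span (x '' {j | n ≤ j ∧ j < N}) := by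
  constructor
  · intro h
    refine Submodule.span_induction ?_ ?_ ?_ ?_ h
    · rintro _ ⟨j, hj, rfl⟩
      exact ⟨j + 1, Ideal.subset_span ⟨j, ⟨hj, Nat.lt_succ_self j⟩, rfl⟩⟩
    · exact ⟨0, Ideal.zero_mem _⟩
    · rintro a b _ _ ⟨N, hN⟩ ⟨M, hM⟩
      refine ⟨max N M, Ideal.add_mem _ ?_ ?_⟩
      · have h1 : {j | n ≤ j ∧ j < N} ⊆ {j | n ≤ j ∧ j < max N M} := fun j hj =>
          ⟨hj.1, hj.2.trans_le (le_max_left _ _)⟩
        exact Ideal.span_mono (Set.image_mono h1) hN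
      · have h1 : {j | n ≤ j ∧ j < M} ⊆ {j | n ≤ j ∧ j < max N M} := fun j hj =>
          ⟨hj.1, hj.2.trans_le (le_max_right _ _)⟩
        exact Ideal.span_mono (Set.image_mono h1) hM
    · rintro a b _ ⟨N, hN⟩
      exact ⟨N, Ideal.mul_mem_left _ _ hN⟩
  · rintro ⟨N, hN⟩
    have h1 : {j | n ≤ j ∧ j < N} ⊆ {j | n ≤ j} := fun j hj => hj.1
    exact Ideal.span_mono (Set.image_mono h1) hN

include hκs hker htf hx hc in
/-- **`p` is a non zero divisor modulo the `x j`** -/
theorem tf_all (y : A) (h : (p : A) * y ∈ Ideal.span (x '' {j | n ≤ j})) :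
    y ∈ Ideal.span (x '' {j | n ≤ j}) := by
  rw [mem_span_iff_fin] at h ⊢
  obtain ⟨N, hN⟩ := h
  exact ⟨N, tf_fin p hκs hker htf hx hc N y hN⟩

end kos

end Vale.Agent.P221.H924
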