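import Vale.Agent.P221.H924.InG
import Vale.Agent.P221.H395.Comp3

/-!
# P221 (helper924): homotopy modulo `p` of quotients of `BP`

* `QOut` : `r : P ⟶ N` is linear, onto on even homotopy, with kernel `(p, x_j)`, and `π_odd N = 0`;
* `qOut_of_mod` : `QOut` for `q ≫ (B ⟶ B ⊗ M)` from the statement `IsForm`.
-/

open CategoryTheory MonoidalCategory MonObj Limits Pretriangulated

set_option linter.unusedSectionVars false

noncomputable section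

namespace Vale.Agent.P221.H924

open Vale.Agent.P251 Vale.Agent.P251.S Vale.Agent.P251.T Vale.Agent.P251.M Vale.Agent.P251.F
  Vale.Agent.P251.I EvenSpheres Vale.Agent.P257.H702 Vale.Agent.P257.H80 Vale.Agent.P251.Q
  Vale.Agent.P251.St Vale.Agent.P257.St Vale.Agent.P221.H746

section gen

universe u

variable {𝒯 : Type u} [Category.{0} 𝒯] [Preadditive 𝒯] [HasZeroObject 𝒯]
    [HasShift 𝒯 ℤ] [∀ n : ℤ, (shiftFunctor 𝒯 n).Additive] [Pretriangulated 𝒯] [IsTriangulated 𝒯]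
    [MonoidalCategory 𝒯] [SymmetricCategory 𝒯] [TensorTriangulated 𝒯] [MonoidalClosed 𝒯]
    [HasCoproducts.{0} 𝒯] [HasProducts.{0} 𝒯] [StableCat 𝒯]

/-- the reduction `X ⟶ X ⊗ M` -/
def rdM {M : 𝒯} (i : 𝟙_ 𝒯 ⟶ M) (X : 𝒯) : X ⟶ X ⊗ M := (ρ_ X).inv ≫ (X ◁ i)

variable {M : 𝒯} {i : 𝟙_ 𝒯 ⟶ M} {δ : M ⟶ (𝟙_ 𝒯)⟦(1 : ℤ)⟧} {p : ℕ}

theorem rdM_nat {X Y : 𝒯} (f : X ⟶ Y) : f ≫ rdM i Y = rdM i X ≫ (f ▷ M) := by
  rw [rdM, rdM, rightUnitor_inv_naturality_assoc, Category.assoc, whisker_exchange]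

theorem rdM_linear {R N : 𝒯} [MonObj R] (L : ModStr R N) :
    L.IsLinear (L.tensorRight M) (rdM i N) := by
  have h1 : (R ◁ rdM i N) ≫ (α_ R N M).inv = rdM i (R ⊗ N) := by
    rw [rdM, rdM, MonoidalCategory.whiskerLeft_comp, Category.assoc,
      associator_inv_naturality_right]
    simp
  change L.act ≫ rdM i N = (R ◁ rdM i N) ≫ (α_ R N M).inv ≫ L.act ▷ M
  rw [rdM_nat, ← Category.assoc, h1]

theorem good_odd {X : 𝒯} (h : Good p X) (hM : Triangle.mk ((p : ℤ) • 𝟙 (𝟙_ 𝒯)) i δ ∈ distTriang 𝒯)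
    (k : ℤ) (f : (𝟙_ 𝒯)⟦2 * k + 1⟧ ⟶ X ⊗ M) : f = 0 := by
  refine ModP.eq_zero hM (fun g hg => ?_) (fun a => h.oddDiv k a) f
  refine ModP.torsionFree_shift (W' := (𝟙_ 𝒯)⟦2 * k⟧)
    ((shiftFunctorAdd' 𝒯 (2 * k) 1 (2 * k + 1) rfl).app _) (fun a ha => ?_) g hg
  have h1 := h.tfE k ((stdSph k).hom ≫ a)
    (by rw [← Preadditive.comp_zsmul, ha, comp_zero])
  rw [← cancel_epi (stdSph k).hom, h1, comp_zero]

theorem lift_even {X : 𝒯}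
    (h : ∀ (k : ℤ) (a : (𝟙_ 𝒯)⟦2 * k + 1⟧ ⟶ X), (p : ℤ) • a = 0 → a = 0)
    (hM : Triangle.mk ((p : ℤ) • 𝟙 (𝟙_ 𝒯)) i δ ∈ distTriang 𝒯)
    (w : ℤ) (f : (𝟙_ 𝒯)⟦2 * w⟧ ⟶ X ⊗ M) : ∃ a : (𝟙_ 𝒯)⟦2 * w⟧ ⟶ X, f = a ≫ rdM i X := by
  obtain ⟨a, ha⟩ := ModP.exists_lift hM (fun g hg => ModP.torsionFree_shift
    (W' := (𝟙_ 𝒯)⟦2 * (w - 1) + 1⟧)
    ((shiftFunctorAdd' 𝒯 (2 * (w - 1) + 1) 1 (2 * w) (by ring)).app _)
    (fun a ha => h _ a ha) g hg) f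
  exact ⟨a, ha⟩

theorem tf_tensor {X A : 𝒯} (hX : ∀ (k : ℤ) (a : (𝟙_ 𝒯)⟦2 * k + 1⟧ ⟶ X), (p : ℤ) • a = 0 → a = 0)
    {l : ℤ} (e : A ≅ (𝟙_ 𝒯)⟦2 * l⟧) (k : ℤ) (b : (𝟙_ 𝒯)⟦2 * k + 1⟧ ⟶ X ⊗ A)
    (hb : (p : ℤ) • b = 0) : b = 0 := by
  have e1 : X ⊗ A ≅ X⟦2 * l⟧ := whiskerLeftIso X e ≪≫ tensorSph (2 * l) X
  exact tf_of_shift (X' := (𝟙_ 𝒯)⟦2 * (k - l) + 1⟧) (Y' := X) (-(2 * l))
    ((shiftFunctorAdd' 𝒯 (2 * k + 1) (-(2 * l)) (2 * (k - l) + 1) (by ring)).app _)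
    ((shiftFunctor 𝒯 (-(2 * l))).mapIso e1 ≪≫
      (shiftFunctorCompIsoId 𝒯 (2 * l) (-(2 * l)) (by ring)).app X) (fun g hg => hX _ g hg) b hb

end gen

variable {T : SHCat} {S : Susp T} {p : ℕ} [hp : Fact p.Prime] {n : ℕ} {P : RingSp T}
  {x : ∀ j : ℕ, SHCat.Hom (S.obj (Cn (p ^ j - 1))) P.obj}
  {κ : HRing (stdEven T.C) P.obj →+* MvPolynomial ℕ (ZMod p)}

/-- `r : P ⟶ N` is linear, onto on even homotopy, with kernel `(p, x_j)`, and `π_odd N = 0` -/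
structure QOut (n : ℕ) (x : ∀ j : ℕ, SHCat.Hom (S.obj (Cn (p ^ j - 1))) P.obj)
    (κ : HRing (stdEven T.C) P.obj →+* MvPolynomial ℕ (ZMod p)) {N : T.C} (MN : ModStr P.obj N)
    (r : P.obj ⟶ N) : Prop where
  lin : μ[P.obj] ≫ r = (P.obj ◁ r) ≫ MN.act
  odd : ∀ (k : ℤ) (f : (𝟙_ T.C)⟦2 * k + 1⟧ ⟶ N), f = 0
  surj : ∀ (w : ℤ) (f : (stdEven T.C).S w ⟶ N), ∃ u : (stdEven T.C).S w ⟶ P.obj, u ≫ r = f
  ker : ∀ (w : ℤ) (u : (stdEven T.C).S w ⟶ P.obj), u ≫ r = 0 ↔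
    κ (HRing.of (stdEven T.C) P.obj w u) ∈
      Ideal.span ((fun j => κ (xc (xE x) j)) '' {j | n ≤ j})

variable {M : T.C} {i : 𝟙_ T.C ⟶ M} {δ : M ⟶ (𝟙_ T.C)⟦(1 : ℤ)⟧}

/-- reduction of the elements of the ideal -/
theorem inGen_red {v : HRing (stdEven T.C) P.obj}
    (hv : v ∈ Ideal.span (xc (xE x) '' {j | n ≤ j})) (w : ℤ) :
    P221.St.InGen n x M ((stdSph w).inv ≫ (v w : (stdEven T.C).S w ⟶ P.obj) ≫ rdM i P.obj) := by
  have h := inGen_whisker i (inGen_of_mem hv w)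
  rw [Category.assoc, Category.assoc] at h
  exact h

/-- decomposition of the elements of `κ⁻¹ (κ x_j)` -/
theorem exists_mem_add
    (hker : ∀ y, κ y = 0 → ∃ y', y = (p : HRing (stdEven T.C) P.obj) * y')
    (hκs : Function.Surjective κ) {w : ℤ} {u : (stdEven T.C).S w ⟶ P.obj}
    (h : κ (HRing.of (stdEven T.C) P.obj w u) ∈
      Ideal.span ((fun j => κ (xc (xE x) j)) '' {j | n ≤ j})) :
    ∃ v ∈ Ideal.span (xc (xE x) '' {j | n ≤ j}), ∃ c : (stdEven T.C).S w ⟶ P.obj,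
      u = (v w : (stdEven T.C).S w ⟶ P.obj) + (p : ℤ) • c := by
  obtain ⟨v, hv, a', ha⟩ := mem_of_kappa_mem p hκs hker h
  refine ⟨v, hv, a' w, ?_⟩
  have h4 : (HRing.of (stdEven T.C) P.obj w u) w = u :=
    DirectSum.of_eq_same (β := (stdEven T.C).Gr P.obj) _ _
  rw [← h4, ha]
  change (v w : (stdEven T.C).S w ⟶ P.obj) + ((p : HRing (stdEven T.C) P.obj) * a') w = _
  congr 1
  have h5 : (p : HRing (stdEven T.C) P.obj) * a' = (p : ℤ) • a' := by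
    rw [zsmul_eq_mul, Int.cast_natCast]
  rw [h5]
  exact DFinsupp.zsmul_apply _ _ _

/-- elements of `π_{2*} P` whose reduction is generated by the `x_j` -/
theorem kappa_mem_of_inGen (hG : Good p P.obj)
    (hM : Triangle.mk ((p : ℤ) • 𝟙 (𝟙_ T.C)) i δ ∈ distTriang T.C) {w : ℤ}
    {u : (stdEven T.C).S w ⟶ P.obj}
    (h : P221.St.InGen n x M ((stdSph w).inv ≫ u ≫ rdM i P.obj)) :
    κ (HRing.of (stdEven T.C) P.obj w u) ∈
      Ideal.span ((fun j => κ (xc (xE x) j)) '' {j | n ≤ j}) := by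
  rw [inGen_iff] at h
  obtain ⟨N, b, hb⟩ := h
  have h2 : ∀ j, ∃ b' : (𝟙_ T.C)⟦2 * w⟧ ⟶ P.obj ⊗ S.obj (Cn (p ^ j - 1)),
      b j = b' ≫ rdM i _ := fun j =>
    lift_even (fun k a ha => tf_tensor hG.oddTf ((isoE S (p ^ j - 1)) ≪≫ stdSph _) k a ha) hM w (b j)
  choose b' hb' using h2
  have h3 : (stdSph w).inv ≫ u ≫ rdM i P.obj =
      (∑ j ∈ Finset.Ioc n N, b' j ≫ mx x j) ≫ rdM i P.obj := by
    rw [hb, Preadditive.sum_comp]
    refine Finset.sum_congr rfl fun j _ => ?_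
    rw [hb' j, Category.assoc, Category.assoc, rdM_nat]
  obtain ⟨c, hc⟩ := ModP.exists_zsmul_of_comp_eq_zero hM
    ((stdSph w).inv ≫ u - ∑ j ∈ Finset.Ioc n N, b' j ≫ mx x j) (by
      rw [Preadditive.sub_comp, sub_eq_zero, Category.assoc]
      exact h3)
  set s : (𝟙_ T.C)⟦2 * w⟧ ⟶ P.obj := ∑ j ∈ Finset.Ioc n N, b' j ≫ mx x j with hs
  have h4 : P221.St.InGen n x T.one (s ≫ (ρ_ P.obj).inv) := by
    rw [inGen_iff]
    refine ⟨N, fun j => b' j ≫ (ρ_ _).inv, ?_⟩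
    rw [hs, Preadditive.sum_comp]
    refine Finset.sum_congr rfl fun j _ => ?_
    rw [Category.assoc, Category.assoc]
    congr 1
    exact rightUnitor_inv_naturality _
  have h5 := of_mem_of_inGen s h4
  have h6 : u = (stdSph w).hom ≫ s + (p : ℤ) • ((stdSph w).hom ≫ c) := by
    rw [← Preadditive.comp_zsmul, ← Preadditive.comp_add, ← cancel_epi (stdSph w).inv,
      Iso.inv_hom_id_assoc, ← hc]
    abel
  have h7 : HRing.of (stdEven T.C) P.obj w u = HRing.of (stdEven T.C) P.obj w ((stdSph w).hom ≫ s) +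
      (p : HRing (stdEven T.C) P.obj) *
        HRing.of (stdEven T.C) P.obj w ((stdSph w).hom ≫ c) := by
    conv_lhs => rw [h6]
    rw [of_add', of_zsmul', Int.cast_natCast]
  have h8 := Ideal.mem_map_of_mem κ h5
  rw [Ideal.map_span, Set.image_image] at h8
  rw [h7, map_add, map_mul, map_natCast, natCast_zero, zero_mul, add_zero]
  exact h8

/-- **forms in the sense of the statement layer** -/
theorem qOut_of_mod (hG : Good p P.obj) (hκs : Function.Surjective κ)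
    (hker : ∀ y, κ y = 0 → ∃ y', y = (p : HRing (stdEven T.C) P.obj) * y')
    (hM : Triangle.mk ((p : ℤ) • 𝟙 (𝟙_ T.C)) i δ ∈ distTriang T.C) {B : T.C}
    (L : ModStr P.obj B) {q : P.obj ⟶ B} (hq : μ[P.obj] ≫ q = (P.obj ◁ q) ≫ L.act)
    (hsurj : ∀ (k : ℤ) (y : (𝟙_ T.C)⟦k⟧ ⟶ B ⊗ M), ∃ u : (𝟙_ T.C)⟦k⟧ ⟶ P.obj ⊗ M,
      u ≫ (q ▷ M) = y)
    (hk : ∀ (k : ℤ) (u : (𝟙_ T.C)⟦k⟧ ⟶ P.obj ⊗ M), u ≫ (q ▷ M) = 0 ↔ P221.St.InGen n x M u) :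
    QOut n x κ (L.tensorRight M) (q ≫ rdM i B) where
  lin := by
    have h1 : L.act ≫ rdM i B = (P.obj ◁ rdM i B) ≫ (L.tensorRight M).act := rdM_linear L
    rw [← Category.assoc, hq, Category.assoc, h1, MonoidalCategory.whiskerLeft_comp,
      Category.assoc]
  odd k f := by
    obtain ⟨u, rfl⟩ := hsurj _ f
    rw [good_odd hG hM k u, zero_comp]
  surj w f := by
    obtain ⟨u, hu⟩ := hsurj _ ((stdSph w).inv ≫ f)
    obtain ⟨a, rfl⟩ := lift_even hG.oddTf hM w u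
    refine ⟨(stdSph w).hom ≫ a, ?_⟩
    rw [← cancel_epi (stdSph w).inv, ← hu, Category.assoc, Category.assoc,
      Iso.inv_hom_id_assoc, rdM_nat]
  ker w u := by
    have h1 : (stdSph w).inv ≫ u ≫ q ≫ rdM i B = ((stdSph w).inv ≫ u ≫ rdM i P.obj) ≫ (q ▷ M) := by
      rw [Category.assoc, Category.assoc, rdM_nat]
    constructor
    · intro h
      refine kappa_mem_of_inGen hG hM ((hk _ _).1 ?_)
      rw [← h1, h, comp_zero]
    · intro h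
      obtain ⟨v, hv, c, hc⟩ := exists_mem_add hker hκs h
      rw [← cancel_epi (stdSph w).inv, comp_zero, h1]
      have h2 : (stdSph w).inv ≫ u ≫ rdM i P.obj = (stdSph w).inv ≫
          (v w : (stdEven T.C).S w ⟶ P.obj) ≫ rdM i P.obj := by
        rw [hc, Preadditive.add_comp]
        have h3 : ((p : ℤ) • c) ≫ rdM i P.obj = 0 := ModP.zsmul_comp_eq_zero hM c
        rw [h3, add_zero]
      rw [h2]
      exact (hk _ _).2 (inGen_red hv w)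

end Vale.Agent.P221.H924
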