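import Vale.Agent.P221.H924.Kos
import Vale.Agent.P251.M.QOut
import Vale.Agent.P257.H702.RegAlg

/-!
# P221 (helper924): the homotopy of a quotient of `BP`, modulo `p`

`B` is a commutative monoid, `κ : π_{2*} B → k[v_1, v_2, …]` a surjection with kernel `(p)`,
`π_{2*} B` has no `p`-torsion; `q : B ⟶ C` is a linear map onto a `B`-module with kernel generated by
`x j`, `j ≥ n`, on homotopy. For `M = S/p`:

* `IsQ.odd` : `π_odd (C ⊗ M) = 0`;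
* `IsQ.surj` : `π_{2*} B → π_{2*} (C ⊗ M)` is onto;
* `IsQ.ker` : its kernel is the set of `u` with `κ u ∈ (κ (x j))`.
-/

open CategoryTheory MonoidalCategory MonObj Limits Pretriangulated

set_option linter.unusedSectionVars false

universe u

namespace Vale.Agent.P221.H924

open Vale.Agent.P251 Vale.Agent.P251.S Vale.Agent.P251.T Vale.Agent.P251.M Vale.Agent.P251.F
  Vale.Agent.P251.I EvenSpheres Vale.Agent.P257.H702 Vale.Agent.P257.H80 Vale.Agent.P251.Q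

variable {𝒯 : Type u} [Category.{0} 𝒯] [Preadditive 𝒯] [HasZeroObject 𝒯]
    [HasShift 𝒯 ℤ] [∀ n : ℤ, (shiftFunctor 𝒯 n).Additive] [Pretriangulated 𝒯] [IsTriangulated 𝒯]
    [MonoidalCategory 𝒯] [SymmetricCategory 𝒯] [TensorTriangulated 𝒯] [MonoidalClosed 𝒯]
    [HasCoproducts.{0} 𝒯] [HasProducts.{0} 𝒯] [StableCat 𝒯]

section lin

variable {B C : 𝒯} [MonObj B] [IsCommMonObj B] (MB : ModStr B C) {q : B ⟶ C}
  (hq : μ[B] ≫ q = (B ◁ q) ≫ MB.act)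

include hq in
theorem gmul_comp_q {m n l : ℤ} (h : m + n = l) (a : (stdEven 𝒯).S m ⟶ B)
    (b : (stdEven 𝒯).S n ⟶ B) :
    gmul h a b ≫ q = (stdEven 𝒯).ext h a (b ≫ q) ≫ MB.act := by
  rw [gmul, Category.assoc, hq, ext_comp_right, Category.assoc]

include hq in
/-- multiples of elements which die in `C` die in `C` -/
theorem mul_comp_q (a y : HRing (stdEven 𝒯) B) (hy : ∀ m, (y m : (stdEven 𝒯).S m ⟶ B) ≫ q = 0)
    (m : ℤ) : ((a * y : HRing (stdEven 𝒯) B) m : (stdEven 𝒯).S m ⟶ B) ≫ q = 0 := by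
  classical
  have h1 : y = ∑ i ∈ DFinsupp.support y, HRing.of (stdEven 𝒯) B i (y i) :=
    (DirectSum.sum_support_of y).symm
  rw [h1, Finset.mul_sum]
  have h3 : (∑ i ∈ DFinsupp.support y, a * HRing.of (stdEven 𝒯) B i (y i) :
      HRing (stdEven 𝒯) B) m = ∑ i ∈ DFinsupp.support y,
        (a * HRing.of (stdEven 𝒯) B i (y i) : HRing (stdEven 𝒯) B) m :=
    DFinsupp.finsetSum_apply _ _ _
  rw [h3, Preadditive.sum_comp]
  refine Finset.sum_eq_zero fun i _ => ?_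
  rw [mul_of_apply a (sub_add_cancel m i) (y i), gmul_comp_q MB hq, hy, ext_zero_right, zero_comp]

variable {d : ℕ → ℤ} (x : ∀ j, (stdEven 𝒯).S (d j) ⟶ B)

/-- the classes of the `x j` -/
noncomputable abbrev xc (j : ℕ) : HRing (stdEven 𝒯) B := HRing.of (stdEven 𝒯) B (d j) (x j)

variable {x}

include hq in
theorem comp_q_of_mem {s : Set ℕ} (hx : ∀ j ∈ s, x j ≫ q = 0) {y : HRing (stdEven 𝒯) B}
    (hy : y ∈ Ideal.span (xc x '' s)) (m : ℤ) : (y m : (stdEven 𝒯).S m ⟶ B) ≫ q = 0 := by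
  revert m
  refine Submodule.span_induction ?_ ?_ ?_ ?_ hy
  · rintro _ ⟨j, hj, rfl⟩ m
    by_cases hm : d j = m
    · subst hm
      have h1 : (xc x j) (d j) = x j := DirectSum.of_eq_same (β := (stdEven 𝒯).Gr B) _ _
      rw [h1, hx j hj]
    · have h1 : (xc x j) m = 0 :=
        DirectSum.of_eq_of_ne (β := (stdEven 𝒯).Gr B) (d j) m (x j) (fun h => hm h.symm)
      rw [h1]
      exact zero_comp
  · intro m
    exact zero_comp
  · intro a b _ _ ha hb m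
    change ((a m : (stdEven 𝒯).S m ⟶ B) + b m) ≫ q = 0
    rw [Preadditive.add_comp, ha, hb, add_zero]
  · intro a b _ hb m
    exact mul_comp_q MB hq a b hb m

end lin

/-- `q : B ⟶ C` is the quotient of `B` by the `x j`, `j ≥ n`, on homotopy. -/
structure IsQ (p n : ℕ) {B C : 𝒯} [MonObj B] [IsCommMonObj B] (MB : ModStr B C) (q : B ⟶ C)
    {d : ℕ → ℤ} (x : ∀ j, (stdEven 𝒯).S (d j) ⟶ B) : Prop where
  lin : μ[B] ≫ q = (B ◁ q) ≫ MB.act
  surjE : ∀ (w : ℤ) (y : (stdEven 𝒯).S w ⟶ C), ∃ u : (stdEven 𝒯).S w ⟶ B, u ≫ q = y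
  zero : ∀ j, n ≤ j → x j ≫ q = 0
  kerE : ∀ (w : ℤ) (u : (stdEven 𝒯).S w ⟶ B), u ≫ q = 0 →
    HRing.of (stdEven 𝒯) B w u ∈ Ideal.span (xc x '' {j | n ≤ j})
  oddDiv : ∀ (k : ℤ) (a : (𝟙_ 𝒯)⟦2 * k + 1⟧ ⟶ C), ∃ b, a = (p : ℤ) • b
  oddTf : ∀ (k : ℤ) (a : (𝟙_ 𝒯)⟦2 * k + 1⟧ ⟶ C), (p : ℤ) • a = 0 → a = 0

section main

variable {p : ℕ} [hp : Fact p.Prime] {n : ℕ} {B C : 𝒯} [MonObj B] [IsCommMonObj B]
  {MB : ModStr B C} {q : B ⟶ C} {d : ℕ → ℤ} {x : ∀ j, (stdEven 𝒯).S (d j) ⟶ B}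
  (hQ : IsQ p n MB q x)
  {κ : HRing (stdEven 𝒯) B →+* MvPolynomial ℕ (ZMod p)} (hκs : Function.Surjective κ)
  (hker : ∀ y, κ y = 0 → ∃ y', y = (p : HRing (stdEven 𝒯) B) * y')
  (htf : ∀ y : HRing (stdEven 𝒯) B, (p : HRing (stdEven 𝒯) B) * y = 0 → y = 0)
  (hx : ∀ j, n ≤ j → (κ (xc x j)).IsWeightedHomogeneous (wN p) (wN p j))
  (hc : ∀ j, n ≤ j → MvPolynomial.coeff (Finsupp.single j 1) (κ (xc x j)) ≠ 0)
  {M : 𝒯} {i : 𝟙_ 𝒯 ⟶ M} {δ : M ⟶ (𝟙_ 𝒯)⟦(1 : ℤ)⟧}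
  (hM : Triangle.mk ((p : ℤ) • 𝟙 (𝟙_ 𝒯)) i δ ∈ distTriang 𝒯)

theorem of_zsmul (w : ℤ) (a : (stdEven 𝒯).S w ⟶ B) : HRing.of (stdEven 𝒯) B w ((p : ℤ) • a) =
    (p : HRing (stdEven 𝒯) B) * HRing.of (stdEven 𝒯) B w a := by
  have h : HRing.of (stdEven 𝒯) B w ((p : ℤ) • a) = (p : ℤ) • HRing.of (stdEven 𝒯) B w a :=
    map_zsmul (DirectSum.of ((stdEven 𝒯).Gr B) w) _ _
  rw [h, zsmul_eq_mul, Int.cast_natCast]

include hQ hκs hker htf hx hc in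
/-- the even homotopy of `C` has no `p`-torsion -/
theorem IsQ.evenTf (w : ℤ) (y : (stdEven 𝒯).S w ⟶ C) (h : (p : ℤ) • y = 0) : y = 0 := by
  obtain ⟨u, rfl⟩ := hQ.surjE w y
  rw [← Preadditive.zsmul_comp] at h
  have h1 := hQ.kerE w _ h
  rw [of_zsmul] at h1
  have h2 := tf_all p hκs hker htf hx hc _ h1
  have h3 := comp_q_of_mem MB hQ.lin (s := {j | n ≤ j}) (fun j hj => hQ.zero j hj) h2 w
  have h4 : (HRing.of (stdEven 𝒯) B w u) w = u := DirectSum.of_eq_same (β := (stdEven 𝒯).Gr B) _ _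
  rwa [h4] at h3

include hQ hκs hker htf hx hc hM in
/-- **the odd homotopy of `C ⊗ M` vanishes** -/
theorem IsQ.odd (k : ℤ) (f : (𝟙_ 𝒯)⟦2 * k + 1⟧ ⟶ C ⊗ M) : f = 0 := by
  refine ModP.eq_zero hM (fun g hg => ?_) (fun a => hQ.oddDiv k a) f
  refine ModP.torsionFree_shift (W' := (𝟙_ 𝒯)⟦2 * k⟧)
    ((shiftFunctorAdd' 𝒯 (2 * k) 1 (2 * k + 1) rfl).app _) (fun a ha => ?_) g hg
  have h1 := hQ.evenTf hκs hker htf hx hc k ((stdSph k).hom ≫ a)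
    (by rw [← Preadditive.comp_zsmul, ha, comp_zero])
  rw [← cancel_epi (stdSph k).hom, h1, comp_zero]

include hQ hM in
/-- **the even homotopy of `C ⊗ M`** comes from `B` -/
theorem IsQ.surj (w : ℤ) (f : (stdEven 𝒯).S w ⟶ C ⊗ M) :
    ∃ u : (stdEven 𝒯).S w ⟶ B, f = u ≫ q ≫ (ρ_ C).inv ≫ (C ◁ i) := by
  obtain ⟨a, rfl⟩ := ModP.exists_lift hM (fun g hg => ModP.torsionFree_shift
    (W' := (𝟙_ 𝒯)⟦2 * (w - 1) + 1⟧)
    (stdSph w ≪≫ (shiftFunctorAdd' 𝒯 (2 * (w - 1) + 1) 1 (2 * w) (by ring)).app _)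
    (fun a ha => hQ.oddTf _ a ha) g hg) f
  obtain ⟨u, rfl⟩ := hQ.surjE w a
  exact ⟨u, by rw [Category.assoc]⟩

include hQ hκs hker hM in
/-- **the kernel** -/
theorem IsQ.ker (w : ℤ) (u : (stdEven 𝒯).S w ⟶ B) :
    u ≫ q ≫ (ρ_ C).inv ≫ (C ◁ i) = 0 ↔
      κ (HRing.of (stdEven 𝒯) B w u) ∈ Ideal.span ((fun j => κ (xc x j)) '' {j | n ≤ j}) := by
  have h1 : Ideal.span ((fun j => κ (xc x j)) '' {j | n ≤ j}) =
      (Ideal.span (xc x '' {j | n ≤ j})).map κ := by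
    rw [Ideal.map_span, Set.image_image]
  constructor
  · intro h
    obtain ⟨b, hb⟩ := ModP.exists_zsmul_of_comp_eq_zero hM (u ≫ q)
      (by rw [Category.assoc]; exact h)
    obtain ⟨u', rfl⟩ := hQ.surjE w b
    have h2 := hQ.kerE w (u - (p : ℤ) • u') (by
      rw [Preadditive.sub_comp, Preadditive.zsmul_comp, hb, sub_self])
    have h3 : HRing.of (stdEven 𝒯) B w (u - (p : ℤ) • u') =
        HRing.of (stdEven 𝒯) B w u - (p : HRing (stdEven 𝒯) B) * HRing.of (stdEven 𝒯) B w u' := by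
      rw [← of_zsmul]
      exact map_sub (DirectSum.of ((stdEven 𝒯).Gr B) w) _ _
    rw [h3] at h2
    have h4 := Ideal.mem_map_of_mem κ h2
    rw [map_sub, map_mul, map_natCast, natCast_zero, zero_mul, sub_zero] at h4
    rw [h1]
    exact h4
  · intro h
    obtain ⟨v, hv, a', ha⟩ := mem_of_kappa_mem p hκs hker h
    have h2 := comp_q_of_mem MB hQ.lin (s := {j | n ≤ j}) (fun j hj => hQ.zero j hj) hv w
    have h3 : u = v w + (p : ℤ) • (a' w) := by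
      have h4 : (HRing.of (stdEven 𝒯) B w u) w = u :=
        DirectSum.of_eq_same (β := (stdEven 𝒯).Gr B) _ _
      rw [← h4, ha]
      change (v w : (stdEven 𝒯).S w ⟶ B) + ((p : HRing (stdEven 𝒯) B) * a') w = _
      congr 1
      have h5 : (p : HRing (stdEven 𝒯) B) * a' = (p : ℤ) • a' := by
        rw [zsmul_eq_mul, Int.cast_natCast]
      rw [h5]
      exact DFinsupp.zsmul_apply _ _ _
    rw [← Category.assoc, h3, Preadditive.add_comp, h2, zero_add, Preadditive.zsmul_comp,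
      ModP.zsmul_comp_eq_zero hM]

end main

end Vale.Agent.P221.H924
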