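import Vale.Agent.P221.H924.Form

/-!
# P221 (helper924): the homotopy of a module as a polynomial ring

`exists_theta` : `r : B ⟶ N` a linear map onto a module on even homotopy,
`χ : π_{2*} B → k[v_1, …, v_n]` a homogeneous surjection with the same kernel; then
`π_{2*} N ≅ k[v_1, …, v_n]`.
-/

open CategoryTheory MonoidalCategory MonObj Limits Pretriangulated

set_option linter.unusedSectionVars false

noncomputable section

universe u

namespace Vale.Agent.P221.H924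

open Vale.Agent.P251 Vale.Agent.P251.S Vale.Agent.P251.T Vale.Agent.P251.M Vale.Agent.P251.F
  Vale.Agent.P251.I EvenSpheres Vale.Agent.P257.H702 Vale.Agent.P257.H80 Vale.Agent.P251.Q

variable {𝒯 : Type u} [Category.{0} 𝒯] [Preadditive 𝒯] [HasZeroObject 𝒯]
    [HasShift 𝒯 ℤ] [∀ n : ℤ, (shiftFunctor 𝒯 n).Additive] [Pretriangulated 𝒯] [IsTriangulated 𝒯]
    [MonoidalCategory 𝒯] [SymmetricCategory 𝒯] [TensorTriangulated 𝒯] [MonoidalClosed 𝒯]
    [HasCoproducts.{0} 𝒯] [HasProducts.{0} 𝒯] [StableCat 𝒯]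

variable {p n : ℕ} [hp : Fact p.Prime] {B N : 𝒯} [MonObj B] [IsCommMonObj B] {MN : ModStr B N}
  {r : B ⟶ N} {χ : HRing (stdEven 𝒯) B →+* MvPolynomial (Fin n) (ZMod p)}

/-- the homogeneous parts of `k[v_1, …, v_n]` -/
abbrev PH (p n : ℕ) (i : ℤ) : Submodule (ZMod p) (MvPolynomial (Fin n) (ZMod p)) :=
  MvPolynomial.weightedHomogeneousSubmodule (ZMod p) (wV p n) i

/-- the values of `χ` in degree `i` -/
def chiI (hd : ∀ (w : ℤ) (u : (stdEven 𝒯).S w ⟶ B),
    (χ (HRing.of (stdEven 𝒯) B w u)).IsWeightedHomogeneous (wV p n) w) (i : ℤ) :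
    ((stdEven 𝒯).S i ⟶ B) →+ PH p n i where
  toFun u := ⟨χ (HRing.of (stdEven 𝒯) B i u), hd i u⟩
  map_zero' := by
    apply Subtype.ext
    have h : HRing.of (stdEven 𝒯) B i 0 = 0 := map_zero (DirectSum.of ((stdEven 𝒯).Gr B) i)
    change χ (HRing.of (stdEven 𝒯) B i 0) = 0
    rw [h, map_zero]
  map_add' a b := by
    apply Subtype.ext
    have h : HRing.of (stdEven 𝒯) B i (a + b) = HRing.of (stdEven 𝒯) B i a +
      HRing.of (stdEven 𝒯) B i b := map_add (DirectSum.of ((stdEven 𝒯).Gr B) i) _ _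
    change χ (HRing.of (stdEven 𝒯) B i (a + b)) = χ _ + χ _
    rw [h, map_add]

theorem chiI_surjective (hs : Function.Surjective χ) (hd : ∀ (w : ℤ) (u : (stdEven 𝒯).S w ⟶ B),
    (χ (HRing.of (stdEven 𝒯) B w u)).IsWeightedHomogeneous (wV p n) w) (i : ℤ) :
    Function.Surjective (chiI hd i) := by
  classical
  intro g
  obtain ⟨y, hy⟩ := hs g.1
  refine ⟨y i, Subtype.ext ?_⟩
  change χ (HRing.of (stdEven 𝒯) B i (y i)) = g.1
  have h1 : y = ∑ i ∈ DFinsupp.support y, HRing.of (stdEven 𝒯) B i (y i) :=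
    (DirectSum.sum_support_of y).symm
  have h2 : g.1 = ∑ w ∈ DFinsupp.support y, χ (HRing.of (stdEven 𝒯) B w (y w)) := by
    rw [← map_sum, ← h1, hy]
  have h3 : g.1 = MvPolynomial.weightedHomogeneousComponent (wV p n) i g.1 :=
    (MvPolynomial.IsWeightedHomogeneous.weightedHomogeneousComponent_same g.2).symm
  rw [h3]
  conv_rhs => rw [h2, map_sum]
  rw [Finset.sum_eq_single i]
  · exact (MvPolynomial.IsWeightedHomogeneous.weightedHomogeneousComponent_same (hd i (y i))).symm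
  · intro w _ hw
    exact (hd w (y w)).weightedHomogeneousComponent_ne i hw.symm
  · intro hi
    have h4 : y i = 0 := by simpa using hi
    have h5 : HRing.of (stdEven 𝒯) B i 0 = 0 := map_zero (DirectSum.of ((stdEven 𝒯).Gr B) i)
    rw [h4]
    refine (congrArg (fun z => MvPolynomial.weightedHomogeneousComponent (wV p n) i (χ z)) h5).trans ?_
    rw [map_zero, map_zero]

/-- **The homotopy of `N` is the polynomial ring.** -/
theorem exists_theta (hr : μ[B] ≫ r = (B ◁ r) ≫ MN.act)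
    (hsurj : ∀ (w : ℤ) (f : (stdEven 𝒯).S w ⟶ N), ∃ u : (stdEven 𝒯).S w ⟶ B, u ≫ r = f)
    (hs : Function.Surjective χ)
    (hd : ∀ (w : ℤ) (u : (stdEven 𝒯).S w ⟶ B),
      (χ (HRing.of (stdEven 𝒯) B w u)).IsWeightedHomogeneous (wV p n) w)
    (hk : ∀ (w : ℤ) (u : (stdEven 𝒯).S w ⟶ B),
      u ≫ r = 0 ↔ χ (HRing.of (stdEven 𝒯) B w u) = 0) :
    ∃ Θ : ∀ i : ℤ, ((stdEven 𝒯).S i ⟶ N) ≃+ PH p n i,
      (∀ (i : ℤ) (u : (stdEven 𝒯).S i ⟶ B),
        (Θ i (u ≫ r) : MvPolynomial (Fin n) (ZMod p)) = χ (HRing.of (stdEven 𝒯) B i u)) ∧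
      ∀ {w i j : ℤ} (h : w + i = j) (a : (stdEven 𝒯).S w ⟶ B) (f : (stdEven 𝒯).S i ⟶ N),
        (Θ j (gsmul MN h a f) : MvPolynomial (Fin n) (ZMod p)) =
          χ (HRing.of (stdEven 𝒯) B w a) * (Θ i f : MvPolynomial (Fin n) (ZMod p)) := by
  let e : ∀ i : ℤ, ((stdEven 𝒯).S i ⟶ B) →+ ((stdEven 𝒯).S i ⟶ N) := fun i =>
    { toFun := fun u => u ≫ r
      map_zero' := zero_comp
      map_add' := fun a b => Preadditive.add_comp _ _ _ _ _ _ }
  have he : ∀ i, Function.Surjective (e i) := hsurj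
  have hker : ∀ i, (e i).ker ≤ (chiI hd i).ker := fun i u hu =>
    (AddMonoidHom.mem_ker).2 (Subtype.ext ((hk i u).1 hu))
  let Θ₀ : ∀ i : ℤ, ((stdEven 𝒯).S i ⟶ N) →+ PH p n i := fun i =>
    (e i).liftOfSurjective (he i) ⟨chiI hd i, hker i⟩
  have h0 : ∀ i (u : (stdEven 𝒯).S i ⟶ B), Θ₀ i (u ≫ r) = chiI hd i u := fun i u =>
    (e i).liftOfRightInverse_comp_apply _ (Function.rightInverse_surjInv (he i))
      ⟨chiI hd i, hker i⟩ u
  have hb : ∀ i, Function.Bijective (Θ₀ i) := by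
    intro i
    constructor
    · rw [injective_iff_map_eq_zero]
      intro f hf
      obtain ⟨u, rfl⟩ := hsurj i f
      rw [h0] at hf
      exact (hk i u).2 (congrArg Subtype.val hf)
    · intro g
      obtain ⟨u, rfl⟩ := chiI_surjective hs hd i g
      exact ⟨u ≫ r, h0 i u⟩
  refine ⟨fun i => AddEquiv.ofBijective (Θ₀ i) (hb i), fun i u => ?_, ?_⟩
  · exact congrArg Subtype.val (h0 i u)
  · intro w i j h a f
    obtain ⟨u, rfl⟩ := hsurj i f
    have h1 : gsmul MN h a (u ≫ r) = gmul h a u ≫ r := (gmul_comp_q MN hr h a u).symm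
    have h2 : ((Θ₀ j (gmul h a u ≫ r) : PH p n j) : MvPolynomial (Fin n) (ZMod p)) =
        χ (HRing.of (stdEven 𝒯) B j (gmul h a u)) := congrArg Subtype.val (h0 j _)
    have h3 : ((Θ₀ i (u ≫ r) : PH p n i) : MvPolynomial (Fin n) (ZMod p)) =
        χ (HRing.of (stdEven 𝒯) B i u) := congrArg Subtype.val (h0 i u)
    change ((Θ₀ j (gsmul MN h a (u ≫ r)) : PH p n j) : MvPolynomial (Fin n) (ZMod p)) =
      χ (HRing.of (stdEven 𝒯) B w a) *
        ((Θ₀ i (u ≫ r) : PH p n i) : MvPolynomial (Fin n) (ZMod p))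
    rw [h1, h2, h3, ← map_mul, of_mul_of h]

end Vale.Agent.P221.H924
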